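import Mathlib

/-!
Orbits `t * β ^ i` and the phases `cos (π t β ^ i)`.
-/

namespace Vale.Agent.P105

open Real Finset

/-- The orbit point `t β ^ i`. -/
noncomputable def X (β t : ℝ) (i : ℤ) : ℝ := t * β ^ i

/-- The phase factor of the orbit point. -/
noncomputable def c (β t : ℝ) (i : ℤ) : ℝ := Real.cos (π * X β t i)

/-- The trace relation: `t β^i + b β^(-i) + 2 Re (a ζ^i)` is an integer for every `i`. -/
def Rel (β : ℝ) (ζ : ℂ) (t b : ℝ) (a : ℂ) : Prop :=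
  ∀ i : ℤ, ∃ k : ℤ, t * β ^ i + b * β ^ (-i) + 2 * (a * ζ ^ i).re = k

/-- The sine of the orbit phase. -/
noncomputable def s (β t : ℝ) (i : ℤ) : ℝ := Real.sin (π * X β t i)

/-- Distance of the orbit point to the integers. -/
noncomputable def D (β t : ℝ) (i : ℤ) : ℝ := |X β t i - round (X β t i)|

theorem D_nonneg (β t : ℝ) (i : ℤ) : 0 ≤ D β t i := abs_nonneg _

theorem D_le_half (β t : ℝ) (i : ℤ) : D β t i ≤ 1 / 2 := abs_sub_round _

theorem D_le_abs (β t : ℝ) (i : ℤ) : D β t i ≤ |X β t i| := by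
  simpa [D] using round_le (X β t i) 0

theorem abs_X {β : ℝ} (hβ : 0 < β) (t : ℝ) (i : ℤ) : |X β t i| = |t| * β ^ i := by
  rw [X, abs_mul, abs_of_pos (zpow_pos hβ i)]

theorem D_le_tail {β : ℝ} (hβ : 0 < β) {ζ a : ℂ} {t b : ℝ} (hζ : ‖ζ‖ = 1)
    (h : Rel β ζ t b a) (i : ℤ) : D β t i ≤ |b| * β ^ (-i) + 2 * ‖a‖ := by
  obtain ⟨k, hk⟩ := h i
  have h1 := round_le (X β t i) k
  have h2 : |(a * ζ ^ i).re| ≤ ‖a‖ := by
    calc |(a * ζ ^ i).re| ≤ ‖a * ζ ^ i‖ := Complex.abs_re_le_norm _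
      _ = ‖a‖ := by rw [norm_mul, norm_zpow, hζ, one_zpow, mul_one]
  have h3 : |b * β ^ (-i)| = |b| * β ^ (-i) := by
    rw [abs_mul, abs_of_pos (zpow_pos hβ _)]
  calc D β t i ≤ |X β t i - (k : ℝ)| := h1
    _ = |b * β ^ (-i) + 2 * (a * ζ ^ i).re| := by
        rw [X, ← hk, abs_sub_comm]
        congr 1
        ring
    _ ≤ |b * β ^ (-i)| + |2 * (a * ζ ^ i).re| := abs_add_le _ _
    _ ≤ |b| * β ^ (-i) + 2 * ‖a‖ := by
        rw [h3, abs_mul, abs_two]
        linarith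

theorem abs_c_eq (β t : ℝ) (i : ℤ) :
    |c β t i| = |Real.cos (π * D β t i)| := by
  have h1 : π * X β t i = π * (X β t i - round (X β t i)) + (round (X β t i)) * π := by ring
  rw [c, h1, Real.cos_add_int_mul_pi, abs_mul, abs_zpow, abs_neg, abs_one, one_zpow, one_mul, D]
  rcases abs_choice (X β t i - round (X β t i)) with h | h <;> rw [h]
  rw [mul_neg, Real.cos_neg]

theorem abs_s_le (β t : ℝ) (i : ℤ) : |s β t i| ≤ π * D β t i := by
  have h1 : π * X β t i = π * (X β t i - round (X β t i)) + (round (X β t i)) * π := by ring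
  rw [s, h1, Real.sin_add_int_mul_pi, abs_mul, abs_zpow, abs_neg, abs_one, one_zpow, one_mul, D]
  refine le_trans Real.abs_sin_le_abs ?_
  rw [abs_mul, abs_of_pos Real.pi_pos]

theorem abs_c_le_one (β t : ℝ) (i : ℤ) : |c β t i| ≤ 1 := Real.abs_cos_le_one _

theorem one_sub_sq_le_c (β t : ℝ) (i : ℤ) : 1 - (π * D β t i) ^ 2 / 2 ≤ |c β t i| := by
  rw [abs_c_eq]
  exact (Real.one_sub_sq_div_two_le_cos).trans (le_abs_self _)

theorem half_le_c {β t : ℝ} {i : ℤ} (h : D β t i ≤ 1 / 8) : 1 / 2 ≤ |c β t i| := by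
  have h1 := one_sub_sq_le_c β t i
  have h2 : π * D β t i ≤ 1 := by
    have := D_nonneg β t i
    nlinarith [Real.pi_lt_four, Real.pi_pos]
  have h3 : 0 ≤ π * D β t i := mul_nonneg Real.pi_pos.le (D_nonneg β t i)
  nlinarith

theorem exp_le_c {β t : ℝ} {i : ℤ} (h : D β t i ≤ 1 / 4) :
    Real.exp (-(10 * D β t i ^ 2)) ≤ |c β t i| := by
  refine le_trans ?_ (one_sub_sq_le_c β t i)
  set d := D β t i with hd
  have hd0 : 0 ≤ d := D_nonneg β t i
  have hp : π ^ 2 ≤ 10 := by nlinarith [Real.pi_pos, Real.pi_lt_d4]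
  set u := (π * d) ^ 2 with hu
  have hu1 : u ≤ 1 := by
    rw [hu, mul_pow]; nlinarith
  have hu2 : u ≤ 10 * d ^ 2 := by
    rw [hu, mul_pow]; nlinarith [sq_nonneg d]
  have hu0 : 0 ≤ u := sq_nonneg _
  calc Real.exp (-(10 * d ^ 2)) ≤ Real.exp (-u) := Real.exp_le_exp.mpr (by linarith)
    _ ≤ 1 - u / 2 := by
        rw [Real.exp_neg]
        have h1 : 1 + u ≤ Real.exp u := by linarith [Real.add_one_le_exp u]
        have h2 : (Real.exp u)⁻¹ ≤ (1 + u)⁻¹ :=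
          inv_anti₀ (by linarith) h1
        refine h2.trans ?_
        rw [inv_le_iff_one_le_mul₀ (by linarith)]
        nlinarith

/-- Geometric bound for a finite sum of `β ^ i` over integers `i ≤ L`. -/
theorem sum_zpow_le {β : ℝ} (hβ : 1 < β) {S : Finset ℤ} {L : ℤ} (hS : ∀ i ∈ S, i ≤ L) :
    ∑ i ∈ S, β ^ i ≤ β ^ L * (β / (β - 1)) := by
  have hb : 0 < β := by linarith
  have hinv0 : (0 : ℝ) ≤ β⁻¹ := inv_nonneg.mpr hb.le
  have hinv1 : β⁻¹ < 1 := inv_lt_one_of_one_lt₀ hβ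
  have hmap : ∑ i ∈ S, β ^ i = β ^ L * ∑ i ∈ S, β⁻¹ ^ (L - i).toNat := by
    rw [Finset.mul_sum]
    refine Finset.sum_congr rfl fun i hi => ?_
    have h : ((L - i).toNat : ℤ) = L - i := Int.toNat_of_nonneg (by linarith [hS i hi])
    rw [inv_pow, ← zpow_natCast, h, ← div_eq_mul_inv, ← zpow_sub₀ hb.ne']
    congr 1
    ring
  rw [hmap]
  refine mul_le_mul_of_nonneg_left ?_ (zpow_pos hb L).le
  have hinj : Set.InjOn (fun i : ℤ => (L - i).toNat) (S : Set ℤ) := by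
    intro i hi j hj hij
    have h1 : ((L - i).toNat : ℤ) = L - i := Int.toNat_of_nonneg (by linarith [hS i hi])
    have h2 : ((L - j).toNat : ℤ) = L - j := Int.toNat_of_nonneg (by linarith [hS j hj])
    simp only at hij
    rw [hij] at h1
    omega
  rw [← Finset.sum_image (f := fun n : ℕ => β⁻¹ ^ n) hinj]
  calc ∑ n ∈ S.image (fun i : ℤ => (L - i).toNat), β⁻¹ ^ n ≤ ∑' n : ℕ, β⁻¹ ^ n :=
        Summable.sum_le_tsum _ (fun _ _ => by positivity) (summable_geometric_of_lt_one hinv0 hinv1)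
    _ = (1 - β⁻¹)⁻¹ := tsum_geometric_of_lt_one hinv0 hinv1
    _ = β / (β - 1) := by
        have h1 : β - 1 ≠ 0 := by linarith
        field_simp

/-- The number of integers of a finite set in an interval. -/
theorem card_between {S : Finset ℤ} {u v : ℤ} {R : ℝ} (hu : ∀ i ∈ S, u ≤ i) (hv : ∀ i ∈ S, i ≤ v)
    (hR : (v : ℝ) + 1 - u ≤ R) (hR0 : 0 ≤ R) : (S.card : ℝ) ≤ R := by
  have h1 : S ⊆ Finset.Icc u v := fun i hi => Finset.mem_Icc.mpr ⟨hu i hi, hv i hi⟩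
  have h2 := Finset.card_le_card h1
  rw [Int.card_Icc] at h2
  by_cases h : u ≤ v + 1
  · have h3 : ((v + 1 - u).toNat : ℤ) = v + 1 - u := Int.toNat_of_nonneg (by omega)
    have h4 : ((v + 1 - u).toNat : ℝ) = (v : ℝ) + 1 - u := by exact_mod_cast h3
    calc (S.card : ℝ) ≤ ((v + 1 - u).toNat : ℝ) := by exact_mod_cast h2
      _ ≤ R := by rw [h4]; exact hR
  · have h3 : (v + 1 - u).toNat = 0 := by omega
    rw [h3] at h2
    simp only [Nat.le_zero] at h2
    rw [h2]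
    simpa using hR0

end Vale.Agent.P105
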