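import Vale.Agent.P105.Defs
import Vale.Agent.P105.Orbit

/-!
The quartic Salem number and the starting orbit.
-/

namespace Vale.Agent.P105.Base0

open Real

/-- `u = (1 + √13)/2`. -/
noncomputable def u0 : ℝ := (1 + Real.sqrt 13) / 2

/-- The conjugate `v = 1 - u`. -/
noncomputable def v0 : ℝ := 1 - u0

/-- The Salem number. -/
noncomputable def b0 : ℝ := (u0 + Real.sqrt (u0 ^ 2 - 4)) / 2

/-- The conjugate on the unit circle. -/
noncomputable def z0 : ℂ := ⟨v0 / 2, Real.sqrt (1 - v0 ^ 2 / 4)⟩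

theorem u0_sq : u0 ^ 2 = u0 + 3 := by
  have h := Real.mul_self_sqrt (show (0:ℝ) ≤ 13 by norm_num)
  unfold u0; linarith [show ((1 + Real.sqrt 13) / 2) ^ 2 =
    (1 + 2 * Real.sqrt 13 + Real.sqrt 13 * Real.sqrt 13) / 4 by ring]

theorem u0_bounds : (2.3027756377319 : ℝ) ≤ u0 ∧ u0 ≤ 2.3027756377320 := by
  have h := Real.mul_self_sqrt (show (0:ℝ) ≤ 13 by norm_num)
  have h0 := Real.sqrt_nonneg 13
  unfold u0
  constructor <;> nlinarith

theorem v0_sq : v0 ^ 2 = v0 + 3 := by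
  unfold v0; linarith [u0_sq, show (1 - u0) ^ 2 = 1 - 2 * u0 + u0 ^ 2 by ring]

theorem b0_bounds : (1.72208380 : ℝ) ≤ b0 ∧ b0 ≤ 1.72208381 := by
  obtain ⟨h1, h2⟩ := u0_bounds
  have h := Real.mul_self_sqrt (show (0:ℝ) ≤ u0 ^ 2 - 4 by nlinarith)
  have h0 := Real.sqrt_nonneg (u0 ^ 2 - 4)
  unfold b0
  constructor <;> nlinarith

theorem b0_pos : 0 < b0 := by linarith [b0_bounds.1]

theorem b0_quad : b0 ^ 2 = u0 * b0 - 1 := by
  obtain ⟨h1, h2⟩ := u0_bounds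
  have h := Real.mul_self_sqrt (show (0:ℝ) ≤ u0 ^ 2 - 4 by nlinarith)
  unfold b0
  linarith [show ((u0 + Real.sqrt (u0 ^ 2 - 4)) / 2) ^ 2 =
    (u0 ^ 2 + 2 * (u0 * Real.sqrt (u0 ^ 2 - 4)) + Real.sqrt (u0 ^ 2 - 4) * Real.sqrt (u0 ^ 2 - 4))
      / 4 by ring,
    show u0 * ((u0 + Real.sqrt (u0 ^ 2 - 4)) / 2) =
      (u0 ^ 2 + u0 * Real.sqrt (u0 ^ 2 - 4)) / 2 by ring]

theorem b0_add_inv : b0 + b0⁻¹ = u0 := by
  have := b0_pos
  field_simp
  linarith [b0_quad]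

theorem b0_quartic : b0 ^ 4 - b0 ^ 3 - b0 ^ 2 - b0 + 1 = 0 := by
  have h : b0 ^ 4 - b0 ^ 3 - b0 ^ 2 - b0 + 1 =
      (b0 ^ 2 - u0 * b0 + 1) * (b0 ^ 2 + (u0 - 1) * b0 + 1) + (u0 ^ 2 - u0 - 3) * b0 ^ 2 := by
    ring
  rw [h, b0_quad, u0_sq]; ring

theorem norm_z0 : ‖z0‖ = 1 := by
  obtain ⟨h1, h2⟩ := u0_bounds
  have h3 : 0 ≤ 1 - v0 ^ 2 / 4 := by unfold v0; nlinarith
  rw [Complex.norm_def, Complex.normSq_apply]
  simp only [z0]
  rw [Real.mul_self_sqrt h3]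
  convert Real.sqrt_one using 2
  ring

theorem z0_ne : z0 ≠ 0 := fun h => by
  have := norm_z0; rw [h, norm_zero] at this; exact zero_ne_one this

theorem z0_add_inv : z0 + z0⁻¹ = (v0 : ℂ) := by
  have h : z0⁻¹ = (starRingEnd ℂ) z0 := Complex.inv_eq_conj norm_z0
  rw [h, Complex.add_conj]
  simp [z0]
  ring

/-- Powers: `β^n + β^-n` and `2 Re ζ^n` are conjugate integers of `Z[u]`. -/
theorem pow_pair : ∀ n : ℕ, ∃ x y : ℤ, b0 ^ n + b0⁻¹ ^ n = x + y * u0 ∧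
    2 * (z0 ^ n).re = x + y * v0 := by
  have hre : ∀ n : ℕ, (z0 ^ (n + 2)).re = v0 * (z0 ^ (n + 1)).re - (z0 ^ n).re := by
    intro n
    have h : z0 ^ (n + 2) = (v0 : ℂ) * z0 ^ (n + 1) - z0 ^ n := by
      rw [← z0_add_inv, add_mul, pow_succ z0 n]
      field_simp [z0_ne]
      ring
    rw [h]; simp [Complex.sub_re, Complex.mul_re]
  have hb : ∀ n : ℕ, b0 ^ (n + 2) + b0⁻¹ ^ (n + 2) =
      u0 * (b0 ^ (n + 1) + b0⁻¹ ^ (n + 1)) - (b0 ^ n + b0⁻¹ ^ n) := by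
    intro n
    rw [← b0_add_inv]
    linarith [show (b0 + b0⁻¹) * (b0 ^ (n + 1) + b0⁻¹ ^ (n + 1)) =
        b0 ^ (n + 2) + b0⁻¹ ^ (n + 2) + b0 * b0⁻¹ * (b0 ^ n + b0⁻¹ ^ n) by ring,
      show b0 * b0⁻¹ * (b0 ^ n + b0⁻¹ ^ n) = b0 ^ n + b0⁻¹ ^ n by
        rw [mul_inv_cancel₀ b0_pos.ne', one_mul]]
  have key : ∀ n : ℕ, (∃ x y : ℤ, b0 ^ n + b0⁻¹ ^ n = x + y * u0 ∧
      2 * (z0 ^ n).re = x + y * v0) ∧ (∃ x y : ℤ, b0 ^ (n + 1) + b0⁻¹ ^ (n + 1) = x + y * u0 ∧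
      2 * (z0 ^ (n + 1)).re = x + y * v0) := by
    intro n
    induction n with
    | zero =>
        refine ⟨⟨2, 0, by norm_num, by norm_num⟩, 0, 1, ?_, ?_⟩
        · simp [b0_add_inv]
        · simp [z0]; ring
    | succ n ih =>
        obtain ⟨⟨x, y, hx, hy⟩, x', y', hx', hy'⟩ := ih
        refine ⟨⟨x', y', hx', hy'⟩, 3 * y' - x, x' + y' - y, ?_, ?_⟩
        · rw [hb, hx', hx]; push_cast
          linarith [show u0 * (↑x' + ↑y' * u0) = ↑x' * u0 + ↑y' * u0 ^ 2 by ring,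
            show (y' : ℝ) * u0 ^ 2 = y' * (u0 + 3) by rw [u0_sq]]
        · rw [hre, mul_sub, mul_left_comm, hy', hy]; push_cast
          linarith [show v0 * (↑x' + ↑y' * v0) = ↑x' * v0 + ↑y' * v0 ^ 2 by ring,
            show (y' : ℝ) * v0 ^ 2 = y' * (v0 + 3) by rw [v0_sq]]
  exact fun n => (key n).1

/-- The starting coefficient `649 + 180 √13`. -/
noncomputable def tt : ℝ := 469 + 360 * u0

/-- Its conjugate `649 - 180 √13`. -/
noncomputable def aa : ℝ := 829 - 360 * u0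

theorem abs_aa_le : |aa| ≤ 0.0007705 := by
  obtain ⟨h1, h2⟩ := u0_bounds
  unfold aa; rw [abs_le]; constructor <;> linarith

theorem rel0 : Rel b0 z0 tt tt (aa : ℂ) := by
  intro i
  obtain ⟨x, y, hx, hy⟩ := pow_pair i.natAbs
  refine ⟨2 * 469 * x + 360 * x + 469 * y + 2 * 360 * 3 * y + 360 * y, ?_⟩
  have h1 : b0 ^ i + b0 ^ (-i) = b0 ^ i.natAbs + b0⁻¹ ^ i.natAbs := by
    rcases Int.natAbs_eq i with h | h
    · conv_lhs => rw [h]
      rw [zpow_neg, zpow_natCast, inv_pow]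
    · conv_lhs => rw [h]
      rw [neg_neg, zpow_neg, zpow_natCast, inv_pow]
      ring
  have h2 : (z0 ^ i).re = (z0 ^ i.natAbs).re := by
    rcases Int.natAbs_eq i with h | h
    · conv_lhs => rw [h]
      rw [zpow_natCast]
    · conv_lhs => rw [h]
      rw [zpow_neg, zpow_natCast, Complex.inv_eq_conj (by rw [norm_pow, norm_z0, one_pow]),
        Complex.conj_re]
  rw [Complex.re_ofReal_mul, h2]
  push_cast
  have e : tt * b0 ^ i + tt * b0 ^ (-i) + 2 * (aa * (z0 ^ i.natAbs).re) =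
      tt * (b0 ^ i + b0 ^ (-i)) + aa * (2 * (z0 ^ i.natAbs).re) := by ring
  rw [e, h1, hx, hy]
  unfold tt aa v0
  linarith [show (y : ℝ) * u0 ^ 2 = y * (u0 + 3) by rw [u0_sq],
    show (469 + 360 * u0) * ((x : ℝ) + y * u0) + (829 - 360 * u0) * (x + y * (1 - u0)) =
      1298 * (x : ℝ) + 829 * y - 720 * (y * u0) + 720 * (y * u0 ^ 2) by ring]

theorem near_zero {k : ℕ} : ∃ n : ℤ, |tt * b0⁻¹ ^ k - n| ≤ 0.416 := by
  obtain ⟨h1, h2⟩ := u0_bounds
  obtain ⟨h3, h4⟩ := b0_bounds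
  have hb := b0_pos
  have hl : (0.580691 : ℝ) ≤ b0⁻¹ ∧ b0⁻¹ ≤ 0.580692 := by
    constructor
    · rw [le_inv_comm₀ (by norm_num) hb]; norm_num; linarith
    · rw [inv_le_comm₀ hb (by norm_num)]; norm_num; linarith
  have ht : (1297.999229 : ℝ) ≤ tt ∧ tt ≤ 1297.99923 := by unfold tt; constructor <;> linarith
  have hlo : ∀ j : ℕ, (1297.999229 : ℝ) * 0.580691 ^ j ≤ tt * b0⁻¹ ^ j := fun j =>
    mul_le_mul ht.1 (pow_le_pow_left₀ (by norm_num) hl.1 j) (by positivity) (by linarith [ht.1])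
  have hhi : ∀ j : ℕ, tt * b0⁻¹ ^ j ≤ 1297.99923 * (0.580692 : ℝ) ^ j := fun j =>
    mul_le_mul ht.2 (pow_le_pow_left₀ (by positivity) hl.2 j) (by positivity) (by norm_num)
  have fin : ∀ (j : ℕ) (n : ℤ),
      (n : ℝ) - 0.416 ≤ 1297.999229 * (0.580691 : ℝ) ^ j →
      1297.99923 * (0.580692 : ℝ) ^ j ≤ n + 0.416 →
      ∃ n : ℤ, |tt * b0⁻¹ ^ j - n| ≤ 0.416 := fun j n a b =>
    ⟨n, abs_le.mpr ⟨by linarith [hlo j], by linarith [hhi j]⟩⟩
  by_cases hk : 17 ≤ k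
  · refine ⟨0, ?_⟩
    have h0 : 0 ≤ tt * b0⁻¹ ^ k := by have := ht.1; positivity
    rw [Int.cast_zero, sub_zero, abs_of_nonneg h0]
    refine le_trans (hhi k) ?_
    refine le_trans (mul_le_mul_of_nonneg_left
      (pow_le_pow_of_le_one (by norm_num) (by norm_num) hk) (by norm_num)) ?_
    norm_num
  · interval_cases k
    · exact fin 0 1298 (by norm_num) (by norm_num)
    · exact fin 1 754 (by norm_num) (by norm_num)
    · exact fin 2 438 (by norm_num) (by norm_num)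
    · exact fin 3 254 (by norm_num) (by norm_num)
    · exact fin 4 148 (by norm_num) (by norm_num)
    · exact fin 5 86 (by norm_num) (by norm_num)
    · exact fin 6 50 (by norm_num) (by norm_num)
    · exact fin 7 29 (by norm_num) (by norm_num)
    · exact fin 8 17 (by norm_num) (by norm_num)
    · exact fin 9 10 (by norm_num) (by norm_num)
    · exact fin 10 6 (by norm_num) (by norm_num)
    · exact fin 11 3 (by norm_num) (by norm_num)
    · exact fin 12 2 (by norm_num) (by norm_num)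
    · exact fin 13 1 (by norm_num) (by norm_num)
    · exact fin 14 1 (by norm_num) (by norm_num)
    · exact fin 15 0 (by norm_num) (by norm_num)
    · exact fin 16 0 (by norm_num) (by norm_num)

theorem cos_low {d : ℝ} (hd0 : 0 ≤ d) (hd : d ≤ 0.418) : 0.25 ≤ Real.cos (π * d) := by
  have h1 : Real.cos (π * 0.418) ≤ Real.cos (π * d) :=
    Real.cos_le_cos_of_nonneg_of_le_pi (by positivity) (by nlinarith [Real.pi_pos])
      (mul_le_mul_of_nonneg_left hd Real.pi_pos.le)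
  refine le_trans ?_ h1
  rw [show π * (0.418 : ℝ) = π / 2 - π * 0.082 by ring, Real.cos_pi_div_two_sub]
  have h2 := Real.sin_gt_sub_cube (x := π * 0.082) (by positivity)
  have h3 : π * 0.082 ≤ (0.2577 : ℝ) := by linarith [Real.pi_lt_d4]
  have h4 := pow_le_pow_left₀ (by positivity) h3 3
  linarith [Real.pi_gt_d4, show (0.2577 : ℝ) ^ 3 ≤ 0.018 by norm_num]

theorem c_bound (i : ℤ) : 1 / 5 + 22 * (31 / 100 : ℝ) ^ 6 ≤ |c b0 tt i| := by
  have hfin : (1 / 5 + 22 * (31 / 100 : ℝ) ^ 6) ≤ 0.25 := by norm_num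
  refine le_trans hfin ?_
  have key : ∃ n : ℤ, |X b0 tt i - n| ≤ 0.418 := by
    rcases Int.natAbs_eq i with h | h
    · obtain ⟨k, hk⟩ := rel0 i
      obtain ⟨m, hm⟩ := near_zero (k := i.natAbs)
      refine ⟨k - m, ?_⟩
      have hre : |((aa : ℂ) * z0 ^ i).re| ≤ 0.0007705 := by
        refine le_trans (Complex.abs_re_le_norm _) ?_
        rw [norm_mul, norm_zpow, norm_z0, one_zpow, mul_one, Complex.norm_real, Real.norm_eq_abs]
        exact abs_aa_le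
      have e : tt * b0⁻¹ ^ i.natAbs = tt * b0 ^ (-i) := by
        conv_rhs => rw [h]
        rw [zpow_neg, zpow_natCast, inv_pow]
      rw [e] at hm
      rw [abs_le] at hm hre ⊢
      unfold X
      push_cast
      constructor <;> linarith
    · obtain ⟨m, hm⟩ := near_zero (k := i.natAbs)
      refine ⟨m, ?_⟩
      have e : X b0 tt i = tt * b0⁻¹ ^ i.natAbs := by
        unfold X
        conv_lhs => rw [h]
        rw [zpow_neg, zpow_natCast, inv_pow]
      rw [e]; linarith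
  obtain ⟨n, hn⟩ := key
  have h1 : π * X b0 tt i = π * (X b0 tt i - n) + n * π := by ring
  rw [c, h1, Real.cos_add_int_mul_pi, abs_mul, abs_zpow, abs_neg, abs_one, one_zpow, one_mul]
  have h2 := cos_low (abs_nonneg _) hn
  refine le_trans h2 ?_
  rcases abs_choice (X b0 tt i - n) with h | h <;> rw [h]
  · exact le_abs_self _
  · rw [mul_neg, Real.cos_neg]; exact le_abs_self _

/-- The quartic polynomial of `b0`. -/
noncomputable def quartic : Polynomial ℤ :=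
  Polynomial.X ^ 4 - Polynomial.X ^ 3 - Polynomial.X ^ 2 - Polynomial.X + 1

theorem z0_quartic : z0 ^ 4 - z0 ^ 3 - z0 ^ 2 - z0 + 1 = 0 := by
  have h1 : z0 ^ 2 - (v0 : ℂ) * z0 + 1 = 0 := by
    rw [← z0_add_inv, add_mul, inv_mul_cancel₀ z0_ne]; ring
  have h2 : ((v0 : ℂ)) ^ 2 = (v0 : ℂ) + 3 := by exact_mod_cast v0_sq
  have h : z0 ^ 4 - z0 ^ 3 - z0 ^ 2 - z0 + 1 =
      (z0 ^ 2 - (v0 : ℂ) * z0 + 1) * (z0 ^ 2 + ((v0 : ℂ) - 1) * z0 + 1) +
        ((v0 : ℂ) ^ 2 - (v0 : ℂ) - 3) * z0 ^ 2 := by ring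
  rw [h, h1, h2]; ring

theorem b0_isIntegral : IsIntegral ℤ b0 := by
  refine ⟨quartic, ?_, ?_⟩
  · unfold quartic; monicity!
  · simp only [quartic, Polynomial.eval₂_sub, Polynomial.eval₂_add, Polynomial.eval₂_X_pow,
      Polynomial.eval₂_X, Polynomial.eval₂_one]
    exact b0_quartic

theorem u0_irrational : Irrational u0 := by
  have h : Irrational (Real.sqrt ((13 : ℕ) : ℝ)) := Nat.Prime.irrational_sqrt (by norm_num)
  have e : ((13 : ℕ) : ℝ) = 13 := by norm_num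
  rw [e] at h
  intro ⟨x, hx⟩
  refine h ⟨2 * x - 1, ?_⟩
  push_cast
  rw [hx]; unfold u0; ring

theorem b0_irrational : Irrational b0 := by
  intro ⟨x, hx⟩
  refine u0_irrational ⟨x + x⁻¹, ?_⟩
  push_cast
  rw [hx, b0_add_inv]

theorem b0_not_pisot : ¬ IsPisot b0 := by
  rintro ⟨-, hint, hall⟩
  have hintQ : IsIntegral ℚ b0 := hint.tower_top
  obtain ⟨g, hg⟩ : minpoly ℚ b0 ∣ quartic.map (algebraMap ℤ ℚ) := by
    refine minpoly.dvd ℚ b0 ?_
    rw [Polynomial.aeval_map_algebraMap]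
    simp [quartic, b0_quartic]
  set q := (minpoly ℚ b0).map (algebraMap ℚ ℂ) with hq
  have hmonic : q.Monic := (minpoly.monic hintQ).map _
  have hmem : ∀ z : ℂ, z ∈ q.roots ↔ Polynomial.aeval z (minpoly ℚ b0) = 0 := by
    intro z
    rw [Polynomial.mem_roots hmonic.ne_zero, Polynomial.IsRoot.def, hq, Polynomial.eval_map,
      ← Polynomial.aeval_def]
  have hbroot : (b0 : ℂ) ∈ q.roots := by
    rw [hmem]
    have h := Polynomial.aeval_algebraMap_apply ℂ b0 (minpoly ℚ b0)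
    rw [minpoly.aeval, map_zero] at h
    exact h
  have hsub : ∀ z ∈ q.roots, z = (b0 : ℂ) ∨ z = ((b0⁻¹ : ℝ) : ℂ) := by
    intro z hz
    rw [hmem] at hz
    by_contra hne
    push Not at hne
    have hlt := hall z hz hne.1
    have hz4 : z ^ 4 - z ^ 3 - z ^ 2 - z + 1 = 0 := by
      have h0 : Polynomial.aeval z (quartic.map (algebraMap ℤ ℚ)) = 0 := by
        rw [hg, map_mul, hz, zero_mul]
      rw [Polynomial.aeval_map_algebraMap] at h0
      simpa [quartic] using h0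
    have hu : (b0 : ℂ) + ((b0⁻¹ : ℝ) : ℂ) = (u0 : ℂ) := by
      rw [← Complex.ofReal_add, b0_add_inv]
    have hb : (b0 : ℂ) * ((b0⁻¹ : ℝ) : ℂ) = 1 := by
      rw [← Complex.ofReal_mul, mul_inv_cancel₀ b0_pos.ne', Complex.ofReal_one]
    have hw : z0 + z0⁻¹ = (v0 : ℂ) := z0_add_inv
    have hw1 : z0 * z0⁻¹ = 1 := mul_inv_cancel₀ z0_ne
    have hu2 : ((u0 : ℂ)) ^ 2 = (u0 : ℂ) + 3 := by exact_mod_cast u0_sq
    have hv : (v0 : ℂ) = 1 - (u0 : ℂ) := by simp [v0]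
    have e1 : (z - (b0 : ℂ)) * (z - ((b0⁻¹ : ℝ) : ℂ)) = z ^ 2 - (u0 : ℂ) * z + 1 := by
      linear_combination (-z) * hu + hb
    have e2 : (z - z0) * (z - z0⁻¹) = z ^ 2 - (v0 : ℂ) * z + 1 := by
      linear_combination (-z) * hw + hw1
    have hfac : (z - (b0 : ℂ)) * (z - ((b0⁻¹ : ℝ) : ℂ)) * ((z - z0) * (z - z0⁻¹)) = 0 := by
      rw [e1, e2, hv]
      linear_combination hz4 - z ^ 2 * hu2
    have hn : ‖z‖ = 1 := by
      rcases mul_eq_zero.mp hfac with h | h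
      · rcases mul_eq_zero.mp h with h | h
        · exact absurd (sub_eq_zero.mp h) hne.1
        · exact absurd (sub_eq_zero.mp h) hne.2
      · rcases mul_eq_zero.mp h with h | h
        · rw [sub_eq_zero.mp h, norm_z0]
        · rw [sub_eq_zero.mp h, norm_inv, norm_z0, inv_one]
    linarith
  have hsum : q.roots.sum = ((-(minpoly ℚ b0).nextCoeff : ℚ) : ℂ) := by
    have h := Polynomial.Splits.nextCoeff_eq_neg_sum_roots_of_monic (IsAlgClosed.splits q) hmonic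
    rw [hq, Polynomial.nextCoeff_map (algebraMap ℚ ℂ).injective] at h
    rw [← hq] at h
    push_cast
    rw [eq_ratCast] at h
    rw [h, neg_neg]
  have hnd : q.roots.Nodup :=
    Polynomial.nodup_roots ((minpoly.irreducible hintQ).separable.map)
  have hne : (b0 : ℂ) ≠ ((b0⁻¹ : ℝ) : ℂ) := by
    intro h
    have h' : b0 = b0⁻¹ := by exact_mod_cast h
    have : b0⁻¹ < 1 := inv_lt_one_of_one_lt₀ (by linarith [b0_bounds.1])
    linarith [b0_bounds.1]
  have hsum' : q.roots.toFinset.sum id = q.roots.sum := by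
    rw [Finset.sum_eq_multiset_sum, Multiset.toFinset_val, hnd.dedup, Multiset.map_id]
  rw [← hsum'] at hsum
  by_cases hinv : ((b0⁻¹ : ℝ) : ℂ) ∈ q.roots
  · have hset : q.roots.toFinset = {(b0 : ℂ), ((b0⁻¹ : ℝ) : ℂ)} := by
      ext z
      simp only [Multiset.mem_toFinset, Finset.mem_insert, Finset.mem_singleton]
      exact ⟨hsub z, fun h => by rcases h with rfl | rfl <;> assumption⟩
    rw [hset, Finset.sum_pair hne, id, id, ← Complex.ofReal_add, b0_add_inv] at hsum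
    exact u0_irrational ⟨_, (by exact_mod_cast hsum.symm)⟩
  · have hset : q.roots.toFinset = {(b0 : ℂ)} := by
      ext z
      simp only [Multiset.mem_toFinset, Finset.mem_singleton]
      refine ⟨fun hz => ?_, fun h => h ▸ hbroot⟩
      rcases hsub z hz with h | h
      · exact h
      · exact absurd (h ▸ hz) hinv
    rw [hset, Finset.sum_singleton, id] at hsum
    exact b0_irrational ⟨_, (by exact_mod_cast hsum.symm)⟩

end Vale.Agent.P105.Base0

namespace Vale.Agent.P105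

open Base0

/-- Starting data: `β` is the root of `x^4 - x^3 - x^2 - x + 1` in `(1, 2)`, `t = 649 + 180 √13`,
`a = 649 - 180 √13`. -/
theorem exists_base :
    ∃ (β t : ℝ) (ζ a : ℂ), 1 < β ∧ β < 2 ∧ ‖ζ‖ = 1 ∧ β ^ 4 - β ^ 3 - β ^ 2 - β + 1 = 0 ∧
      IsIntegral ℤ β ∧ ¬ IsPisot β ∧ 1 ≤ t ∧ ‖a‖ ≤ (31 / 100) ^ 6 ∧ Rel β ζ t t a ∧
      ∀ i : ℤ, 1 / 5 + 22 * (31 / 100) ^ 6 ≤ |c β t i| := by
  refine ⟨b0, tt, z0, (aa : ℂ), ?_, ?_, norm_z0, b0_quartic, b0_isIntegral, b0_not_pisot, ?_, ?_,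
    rel0, c_bound⟩
  · linarith [b0_bounds.1]
  · linarith [b0_bounds.2]
  · unfold tt; linarith [u0_bounds.1]
  · rw [Complex.norm_real, Real.norm_eq_abs]
    exact le_trans abs_aa_le (by norm_num)

end Vale.Agent.P105
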