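import Mathlib

/-!
Definitions used in the statement about Bernoulli convolutions.
-/

namespace Vale.Agent.P105

open MeasureTheory

/-- A Pisot number: an algebraic integer `β > 1` all of whose other conjugates (the other
complex roots of its minimal polynomial) have modulus less than `1`. -/
def IsPisot (β : ℝ) : Prop :=
  1 < β ∧ IsIntegral ℤ β ∧
    ∀ z : ℂ, Polynomial.aeval z (minpoly ℚ β) = 0 → z ≠ (β : ℂ) → ‖z‖ < 1

/-- The fair law on `Bool`. -/
noncomputable def coin : Measure Bool :=
  (2⁻¹ : ENNReal) • Measure.dirac true + (2⁻¹ : ENNReal) • Measure.dirac false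

/-- The sign `1` or `-1` of a Boolean. -/
def sign (b : Bool) : ℝ := if b then 1 else -1

/-- The Bernoulli convolution: the law of `∑ ε_n l ^ n` for independent fair signs `ε_n`. -/
noncomputable def nu (l : ℝ) : Measure ℝ :=
  Measure.map (fun ω : ℕ → Bool => ∑' n : ℕ, sign (ω n) * l ^ n)
    (Measure.infinitePi fun _ : ℕ => coin)

/-- `nu l` is singular: it gives full mass to a Borel set of Lebesgue measure zero. -/
def Singular (l : ℝ) : Prop :=
  ∃ S : Set ℝ, MeasurableSet S ∧ volume S = 0 ∧ nu l S = 1

end Vale.Agent.P105
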