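import Mathlib

/-!
A Dirichlet lemma with a lower bound on the multiplier.
-/

namespace Vale.Agent.P105

open Real Finset

/-- For every `φ`, `G ≥ 1` and `0 < ε ≤ 1` some `p ≥ G` has `p φ` within `min ε (1/p)` of an
integer and `p ≤ 2 G / ε + 4 G ^ 2`. -/
theorem exists_mult (φ : ℝ) {G : ℕ} (hG : 1 ≤ G) {ε : ℝ} (hε : 0 < ε) (hε1 : ε ≤ 1) :
    ∃ p : ℕ, G ≤ p ∧ 1 ≤ p ∧ (p : ℝ) ≤ 2 * G / ε + 4 * (G : ℝ) ^ 2 ∧
      ∃ j : ℤ, |(p : ℝ) * φ - j| ≤ ε ∧ (p : ℝ) * |(p : ℝ) * φ - j| ≤ 1 := by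
  have hGR : (1 : ℝ) ≤ G := by exact_mod_cast hG
  set dist : ℕ → ℝ := fun k => |(k : ℝ) * φ - round ((k : ℝ) * φ)| with hdist
  -- Dirichlet with a range `n` chosen so that small multipliers are excluded
  have hdir : ∀ (n : ℕ) (η : ℝ), 1 ≤ n → 1 / ((n : ℝ) + 1) ≤ η →
      (∀ k : ℕ, 1 ≤ k → k ≤ G → 1 / ((n : ℝ) + 1) < dist k) →
      ∃ p : ℕ, G ≤ p ∧ 1 ≤ p ∧ p ≤ n ∧
        ∃ j : ℤ, |(p : ℝ) * φ - j| ≤ η ∧ (p : ℝ) * |(p : ℝ) * φ - j| ≤ 1 := by
    intro n η hn hη hfar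
    obtain ⟨j, k, hk0, hkn, hk⟩ := Real.exists_int_int_abs_mul_sub_le φ hn
    set p := k.toNat with hp
    have hpk : ((p : ℕ) : ℤ) = k := Int.toNat_of_nonneg hk0.le
    have hpR : (p : ℝ) = (k : ℝ) := by exact_mod_cast hpk
    have hp1 : 1 ≤ p := by omega
    have hGp : G ≤ p := by
      by_contra hcon
      have h1 := hfar p hp1 (by omega)
      have h2 : dist p ≤ |(p : ℝ) * φ - (j : ℝ)| := round_le _ j
      rw [hpR] at h2
      linarith [h2.trans hk]
    refine ⟨p, hGp, hp1, by omega, j, ?_, ?_⟩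
    · rw [hpR]; exact hk.trans hη
    · rw [hpR]
      have h1 : (k : ℝ) ≤ (n : ℝ) := by exact_mod_cast hkn
      have h2 : (0 : ℝ) ≤ (k : ℝ) := by exact_mod_cast hk0.le
      calc (k : ℝ) * |(k : ℝ) * φ - j| ≤ (n : ℝ) * (1 / ((n : ℝ) + 1)) :=
            mul_le_mul h1 hk (abs_nonneg _) (Nat.cast_nonneg _)
        _ ≤ 1 := by rw [mul_one_div, div_le_one (by positivity)]; linarith
  obtain ⟨k0, hk0mem, hk0⟩ := (Finset.Icc 1 G).exists_min_image dist
    ⟨1, Finset.mem_Icc.mpr ⟨le_refl _, hG⟩⟩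
  rw [Finset.mem_Icc] at hk0mem
  set d := dist k0 with hd
  have hmin : ∀ k : ℕ, 1 ≤ k → k ≤ G → d ≤ dist k := fun k h1 h2 =>
    hk0 k (Finset.mem_Icc.mpr ⟨h1, h2⟩)
  have hGε : 2 ≤ 2 * (G : ℝ) / ε := by
    rw [le_div_iff₀ hε]; nlinarith
  by_cases hfar : ε < d
  · -- all small multipliers are far from integers
    set n := ⌈1 / ε⌉₊ with hn
    have hn1 : 1 ≤ n := Nat.one_le_iff_ne_zero.mpr (by
      simp only [hn, ne_eq, Nat.ceil_eq_zero, not_le]; positivity)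
    have hle : 1 / ((n : ℝ) + 1) ≤ ε := by
      rw [div_le_iff₀ (by positivity)]
      have h := Nat.le_ceil (1 / ε)
      rw [← hn, div_le_iff₀ hε] at h
      nlinarith
    obtain ⟨p, h1, h2, h3, h4⟩ := hdir n ε hn1 hle
      (fun k a b => lt_of_le_of_lt hle (lt_of_lt_of_le hfar (hmin k a b)))
    refine ⟨p, h1, h2, ?_, h4⟩
    have h5 : (n : ℝ) ≤ 1 / ε + 1 := (Nat.ceil_lt_add_one (by positivity)).le
    have h6 : (p : ℝ) ≤ (n : ℝ) := by exact_mod_cast h3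
    have h7 : 1 / ε ≤ (G : ℝ) / ε := div_le_div_of_nonneg_right hGR hε.le
    have h8 : 1 ≤ (G : ℝ) / ε := by rw [le_div_iff₀ hε]; linarith
    have : 2 * (G : ℝ) / ε = G / ε + G / ε := by ring
    nlinarith
  · push Not at hfar
    -- a multiple of the best small multiplier
    set q := G / k0 + 1 with hq
    have hk0pos : 0 < k0 := hk0mem.1
    have hGq : G ≤ q * k0 := by
      have := Nat.lt_mul_div_succ G hk0pos
      rw [hq, mul_comm]
      omega
    have hq2 : q * k0 ≤ 2 * G := by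
      have h1 := Nat.div_mul_le_self G k0
      rw [hq, add_mul, one_mul]
      omega
    have hqG : q ≤ 2 * G := le_trans (Nat.le_mul_of_pos_right q hk0pos) hq2
    have hqR : (q : ℝ) ≤ 2 * G := by exact_mod_cast hqG
    have hpR : ((q * k0 : ℕ) : ℝ) ≤ 2 * G := by exact_mod_cast hq2
    have hd0 : 0 ≤ d := abs_nonneg _
    have hmul : |((q * k0 : ℕ) : ℝ) * φ - ((q * round ((k0 : ℝ) * φ) : ℤ) : ℝ)| = q * d := by
      rw [hd, hdist]
      push_cast
      rw [mul_assoc, ← mul_sub, abs_mul, Nat.abs_cast]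
    by_cases hcase : (q : ℝ) * d ≤ ε ∧ 2 * (G : ℝ) * ((q : ℝ) * d) ≤ 1
    · refine ⟨q * k0, hGq, le_trans hG hGq, ?_, q * round ((k0 : ℝ) * φ), ?_, ?_⟩
      · have : 0 ≤ 2 * (G : ℝ) / ε := by positivity
        nlinarith
      · rw [hmul]; exact hcase.1
      · rw [hmul]
        refine le_trans ?_ hcase.2
        exact mul_le_mul_of_nonneg_right hpR (mul_nonneg (Nat.cast_nonneg _) hd0)
    · have hlb : 1 / (2 * (G : ℝ) / ε + 4 * (G : ℝ) ^ 2) < d := by
        have hpos : 0 < 2 * (G : ℝ) / ε + 4 * (G : ℝ) ^ 2 := by positivity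
        rw [div_lt_iff₀ hpos]
        rcases not_and_or.mp hcase with h | h <;> push Not at h
        · have h1 : ε < 2 * (G : ℝ) * d := lt_of_lt_of_le h (mul_le_mul_of_nonneg_right hqR hd0)
          have h2 : 1 < 2 * (G : ℝ) / ε * d := by
            rw [div_mul_eq_mul_div, lt_div_iff₀ hε]; linarith
          nlinarith
        · have h1 : 1 < 4 * (G : ℝ) ^ 2 * d := by
            have : 2 * (G : ℝ) * ((q : ℝ) * d) ≤ 2 * (G : ℝ) * (2 * (G : ℝ) * d) :=
              mul_le_mul_of_nonneg_left (mul_le_mul_of_nonneg_right hqR hd0) (by positivity)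
            nlinarith
          have : 0 ≤ 2 * (G : ℝ) / ε * d := by positivity
          nlinarith
      have hdpos : 0 < d := lt_trans (by positivity) hlb
      set n := ⌊1 / d⌋₊ with hn
      have hd1 : d ≤ 1 := le_trans hfar hε1
      have hn1 : 1 ≤ n := by
        rw [hn, Nat.one_le_floor_iff, le_div_iff₀ hdpos]; linarith
      have hlt : 1 / ((n : ℝ) + 1) < d := by
        rw [div_lt_iff₀ (by positivity)]
        have h := Nat.lt_floor_add_one (1 / d)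
        rw [← hn, div_lt_iff₀ hdpos] at h
        linarith
      obtain ⟨p, h1, h2, h3, h4⟩ := hdir n ε hn1 (hlt.le.trans hfar)
        (fun k a b => lt_of_lt_of_le hlt (hmin k a b))
      refine ⟨p, h1, h2, ?_, h4⟩
      have h5 : (n : ℝ) ≤ 1 / d := Nat.floor_le (by positivity)
      have h6 : (p : ℝ) ≤ (n : ℝ) := by exact_mod_cast h3
      have hpos : 0 < 2 * (G : ℝ) / ε + 4 * (G : ℝ) ^ 2 := by positivity
      have h7 : 1 / d ≤ 2 * (G : ℝ) / ε + 4 * (G : ℝ) ^ 2 := by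
        rw [div_le_iff₀ hdpos]
        rw [div_lt_iff₀ hpos] at hlb
        linarith
      linarith

end Vale.Agent.P105
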