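import Vale.Agent.P105.Defs

/-!
Facts about the law `nu l`: characteristic function, second moments of cosine sums, and a
criterion for singularity.
-/

namespace Vale.Agent.P105

open MeasureTheory Real Finset Filter
open scoped ENNReal Topology

instance : IsProbabilityMeasure coin := ⟨by simp [coin, ENNReal.inv_two_add_inv_two]⟩

lemma abs_sign (b : Bool) : |sign b| = 1 := by cases b <;> simp [sign]

lemma sign_not (b : Bool) : sign (!b) = -sign b := by cases b <;> simp [sign]

lemma coin_map_not : coin.map Bool.not = coin := by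
  simp [coin, Measure.map_add, measurable_of_finite, Measure.map_smul, Measure.map_dirac, add_comm]

/-- The law of the fair signs. -/
noncomputable abbrev signs : Measure (ℕ → Bool) := Measure.infinitePi fun _ : ℕ => coin

lemma measurable_sign_eval (n : ℕ) : Measurable fun ω : ℕ → Bool => sign (ω n) :=
  (measurable_of_finite sign).comp (measurable_pi_apply n)

lemma measurable_partial (l : ℝ) (M : ℕ) :
    Measurable fun ω : ℕ → Bool => ∑ n ∈ Finset.range M, sign (ω n) * l ^ n :=
  Finset.measurable_sum _ fun n _ => (measurable_sign_eval n).mul_const _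

lemma summable_signs {l : ℝ} (h0 : 0 ≤ l) (h1 : l < 1) (ω : ℕ → Bool) :
    Summable fun n : ℕ => sign (ω n) * l ^ n :=
  (summable_geometric_of_lt_one h0 h1).of_norm_bounded
    fun n => by simp [abs_sign, abs_of_nonneg h0]

lemma measurable_series {l : ℝ} (h0 : 0 ≤ l) (h1 : l < 1) :
    Measurable fun ω : ℕ → Bool => ∑' n : ℕ, sign (ω n) * l ^ n := by
  have h : Tendsto (fun (M : ℕ) (ω : ℕ → Bool) => ∑ n ∈ Finset.range M, sign (ω n) * l ^ n)
      atTop (𝓝 fun ω : ℕ → Bool => ∑' n : ℕ, sign (ω n) * l ^ n) :=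
    tendsto_pi_nhds.2 fun ω => (summable_signs h0 h1 ω).hasSum.tendsto_sum_nat
  exact measurable_of_tendsto_metrizable (measurable_partial l) h

lemma isProbability_nu {l : ℝ} (h0 : 0 ≤ l) (h1 : l < 1) : IsProbabilityMeasure (nu l) :=
  Measure.isProbabilityMeasure_map (measurable_series h0 h1).aemeasurable

lemma nu_support {l : ℝ} (h0 : 0 ≤ l) (h1 : l < 1) :
    ∀ᵐ x ∂nu l, |x| ≤ 1 / (1 - l) := by
  rw [nu, ae_map_iff (measurable_series h0 h1).aemeasurable
    (measurableSet_le measurable_abs measurable_const)]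
  refine Eventually.of_forall fun ω => ?_
  rw [one_div, ← Real.norm_eq_abs]
  exact tsum_of_norm_bounded (hasSum_geometric_of_lt_one h0 h1)
    fun n => by simp [abs_sign, abs_of_nonneg h0]

lemma integral_flip (M : ℕ) {f : (ℕ → Bool) → ℝ} (hf : Measurable f)
    (hfi : ∀ ω ω', (∀ n, n ≠ M → ω n = ω' n) → f ω = f ω') :
    ∫ ω, f ω * sign (ω M) ∂signs = 0 := by
  obtain ⟨g, hg⟩ : ∃ g : ℕ → Bool → Bool, g = fun n => if n = M then Bool.not else id := ⟨_, rfl⟩
  have hmap : signs.map (fun ω n => g n (ω n)) = signs := by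
    rw [signs, Measure.infinitePi_map_pi _ fun n => measurable_of_finite (g n)]
    congr 1
    funext n
    rw [hg]
    by_cases hn : n = M <;> simp [hn, coin_map_not]
  have h : ∫ ω, f ω * sign (ω M) ∂signs = -∫ ω, f ω * sign (ω M) ∂signs := by
    conv_lhs => rw [← hmap]
    have hm : Measurable fun (ω : ℕ → Bool) n => g n (ω n) := measurable_pi_lambda _ fun n =>
      (measurable_of_finite (g n)).comp (measurable_pi_apply n)
    have hfm : Measurable fun ω : ℕ → Bool => f ω * sign (ω M) := hf.mul (measurable_sign_eval M)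
    rw [integral_map hm.aemeasurable hfm.aestronglyMeasurable, ← integral_neg]
    refine integral_congr_ae (Eventually.of_forall fun ω => ?_)
    dsimp only
    rw [hfi (fun n => g n (ω n)) ω fun n hn => by simp [hg, hn],
      show g M (ω M) = !(ω M) by simp [hg], sign_not, mul_neg]
  linarith

lemma integral_cos_partial (l ξ : ℝ) (M : ℕ) :
    ∫ ω, Real.cos (ξ * ∑ n ∈ Finset.range M, sign (ω n) * l ^ n) ∂signs
      = ∏ n ∈ Finset.range M, Real.cos (ξ * l ^ n) := by
  induction M with
  | zero => simp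
  | succ M ih =>
    obtain ⟨S, hS⟩ : ∃ S : (ℕ → Bool) → ℝ,
        S = fun ω => ∑ n ∈ Finset.range M, sign (ω n) * l ^ n := ⟨_, rfl⟩
    have hSm : Measurable S := hS ▸ measurable_partial l M
    have key : ∀ ω : ℕ → Bool, Real.cos (ξ * ∑ n ∈ Finset.range (M + 1), sign (ω n) * l ^ n)
        = Real.cos (ξ * S ω) * Real.cos (ξ * l ^ M)
          - Real.sin (ξ * l ^ M) * (Real.sin (ξ * S ω) * sign (ω M)) := fun ω => by
      rw [Finset.sum_range_succ, mul_add, Real.cos_add, hS]
      cases ω M <;> simp [sign, mul_neg] <;> ring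
    have hc : Measurable fun ω => Real.cos (ξ * S ω) :=
      Real.measurable_cos.comp (hSm.const_mul ξ)
    have hs : Measurable fun ω => Real.sin (ξ * S ω) :=
      Real.measurable_sin.comp (hSm.const_mul ξ)
    have hb1 : Integrable (fun ω => Real.cos (ξ * S ω) * Real.cos (ξ * l ^ M)) signs :=
      ((integrable_const (1 : ℝ)).mono' hc.aestronglyMeasurable
        (Eventually.of_forall fun ω => Real.abs_cos_le_one _)).mul_const _
    have hb2 : Integrable (fun ω => Real.sin (ξ * l ^ M) * (Real.sin (ξ * S ω) * sign (ω M))) signs :=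
      ((integrable_const (1 : ℝ)).mono' (hs.mul (measurable_sign_eval M)).aestronglyMeasurable
        (Eventually.of_forall fun ω => by
          simp only [Pi.mul_apply, norm_mul, Real.norm_eq_abs, abs_sign, mul_one]
          exact Real.abs_sin_le_one _)).const_mul _
    simp only [key]
    rw [integral_sub hb1 hb2, integral_mul_const, integral_const_mul,
      integral_flip M hs fun ω ω' h => ?_, mul_zero, sub_zero, Finset.prod_range_succ]
    · rw [hS]
      exact congrArg (· * _) ih
    · rw [hS]
      exact congrArg Real.sin (congrArg (ξ * ·) (Finset.sum_congr rfl fun n hn => by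
        rw [h n (Finset.mem_range.1 hn).ne]))

/-- The partial products of `cos (ξ l ^ n)` tend to the transform of `nu l` at `ξ`. -/
lemma tendsto_prod_cos {l : ℝ} (h0 : 0 ≤ l) (h1 : l < 1) (ξ : ℝ) :
    Tendsto (fun M => ∏ n ∈ Finset.range M, Real.cos (ξ * l ^ n)) atTop
      (𝓝 (∫ x, Real.cos (ξ * x) ∂nu l)) := by
  rw [nu, integral_map (measurable_series h0 h1).aemeasurable (by fun_prop)]
  refine (tendsto_congr fun M => (integral_cos_partial l ξ M).symm).2 ?_
  refine tendsto_integral_of_dominated_convergence (fun _ => (1 : ℝ))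
    (fun M => (Real.measurable_cos.comp
      ((measurable_partial l M).const_mul ξ)).aestronglyMeasurable)
    (integrable_const _) (fun M => Eventually.of_forall fun ω => Real.abs_cos_le_one _)
    (Eventually.of_forall fun ω => ?_)
  exact (Real.continuous_cos.tendsto _).comp
    ((summable_signs h0 h1 ω).hasSum.tendsto_sum_nat.const_mul ξ)

/-- The characteristic function of `nu l` (it is real). -/
noncomputable def phi (l ξ : ℝ) : ℝ := ∫ x, Real.cos (ξ * x) ∂(nu l)

theorem nu_isProbability {l : ℝ} (hl0 : 0 < l) (hl1 : l < 1) :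
    IsProbabilityMeasure (nu l) :=
  isProbability_nu hl0.le hl1

/-- Erdős product formula. -/
theorem tendsto_prod_phi {l : ℝ} (hl0 : 0 < l) (hl1 : l < 1) (ξ : ℝ) :
    Tendsto (fun M : ℕ => ∏ k ∈ range M, Real.cos (ξ * l ^ k)) atTop (𝓝 (phi l ξ)) :=
  tendsto_prod_cos hl0.le hl1 ξ

/-- Products of two cosines over a symmetric interval are nearly orthogonal. -/
theorem abs_integral_cos_mul_cos_le {R p q : ℝ} (hR : 0 ≤ R) (h1 : p - q ≠ 0)
    (h2 : p + q ≠ 0) :
    |∫ x in Set.Icc (-R) R, Real.cos (p * x) * Real.cos (q * x)| ≤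
      1 / |p - q| + 1 / |p + q| := by
  have key : ∀ r : ℝ, r ≠ 0 → |∫ x in (-R)..R, Real.cos (r * x)| ≤ 2 / |r| := fun r hr => by
    rw [intervalIntegral.integral_comp_mul_left (fun x => Real.cos x) hr, integral_cos,
      smul_eq_mul, abs_mul, abs_inv, ← div_eq_inv_mul]
    refine div_le_div_of_nonneg_right ((abs_sub _ _).trans ?_) (abs_nonneg r)
    linarith [Real.abs_sin_le_one (r * R), Real.abs_sin_le_one (r * -R)]
  have hi : ∀ r : ℝ, IntervalIntegrable (fun x => Real.cos (r * x)) volume (-R) R := fun r =>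
    (by fun_prop : Continuous fun x : ℝ => Real.cos (r * x)).intervalIntegrable _ _
  have e : (fun x => Real.cos (p * x) * Real.cos (q * x))
      = fun x => (Real.cos ((p - q) * x) + Real.cos ((p + q) * x)) / 2 := funext fun x => by
    rw [sub_mul, add_mul, Real.cos_sub, Real.cos_add]; ring
  rw [e, integral_Icc_eq_integral_Ioc, ← intervalIntegral.integral_of_le (by linarith),
    intervalIntegral.integral_div, intervalIntegral.integral_add (hi _) (hi _), abs_div,
    abs_two, div_le_iff₀ two_pos]
  refine (abs_add_le _ _).trans ((add_le_add (key _ h1) (key _ h2)).trans (le_of_eq ?_))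
  ring

/-- A cosine sum whose mean dominates both its `nu`-variance and its Lebesgue `L²` norm gives a set
carrying most of `nu l` and little Lebesgue measure. -/
theorem exists_test_set {l : ℝ} (hl0 : 0 < l) (hl1 : l < 1) {ι : Type*} (S : Finset ι)
    (u ξ : ι → ℝ) {mu V L : ℝ} (hmu : mu = ∑ j ∈ S, u j * phi l (ξ j)) (hpos : 0 < mu)
    (hV : ∑ j ∈ S, ∑ k ∈ S,
        u j * u k * ((phi l (ξ j - ξ k) + phi l (ξ j + ξ k)) / 2) ≤ mu ^ 2 + V)
    (hL : ∑ j ∈ S, ∑ k ∈ S, |u j * u k| *
        |∫ x in Set.Icc (-(1 / (1 - l))) (1 / (1 - l)),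
          Real.cos (ξ j * x) * Real.cos (ξ k * x)| ≤ L) :
    ∃ F : Set ℝ, MeasurableSet F ∧ nu l Fᶜ ≤ ENNReal.ofReal (4 * V / mu ^ 2) ∧
      volume F ≤ ENNReal.ofReal (4 * L / mu ^ 2) := by
  haveI := isProbability_nu hl0.le hl1
  obtain ⟨T, hT⟩ : ∃ T : ℝ → ℝ, T = fun x => ∑ j ∈ S, u j * Real.cos (ξ j * x) := ⟨_, rfl⟩
  obtain ⟨A, hA⟩ : ∃ A : Set ℝ, A = Set.Icc (-(1 / (1 - l))) (1 / (1 - l)) := ⟨_, rfl⟩
  rw [← hA] at hL
  have hTc : Continuous T := by rw [hT]; fun_prop
  have hcos : ∀ r : ℝ, Integrable (fun x => Real.cos (r * x)) (nu l) := fun r =>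
    (integrable_const (1 : ℝ)).mono' (by fun_prop : Continuous fun x : ℝ =>
      Real.cos (r * x)).aestronglyMeasurable (Eventually.of_forall fun x => Real.abs_cos_le_one _)
  have hTi : Integrable T (nu l) := by
    rw [hT]; exact integrable_finsetSum _ fun j _ => (hcos _).const_mul _
  have h1 : ∫ x, T x ∂nu l = mu := by
    rw [hT, integral_finsetSum _ fun j _ => (hcos _).const_mul _, hmu]
    exact Finset.sum_congr rfl fun j _ => integral_const_mul _ _
  have hsq : (fun x => T x ^ 2) = fun x => ∑ j ∈ S, ∑ k ∈ S,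
      u j * u k * ((Real.cos ((ξ j - ξ k) * x) + Real.cos ((ξ j + ξ k) * x)) / 2) := funext fun x => by
    rw [hT, pow_two, Finset.sum_mul_sum]
    refine Finset.sum_congr rfl fun j _ => Finset.sum_congr rfl fun k _ => ?_
    rw [sub_mul, add_mul, Real.cos_sub, Real.cos_add]; ring
  have hpair : ∀ j k, Integrable (fun x =>
      u j * u k * ((Real.cos ((ξ j - ξ k) * x) + Real.cos ((ξ j + ξ k) * x)) / 2)) (nu l) :=
    fun j k => (((hcos _).add (hcos _)).div_const _).const_mul _
  have hT2i : Integrable (fun x => T x ^ 2) (nu l) := by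
    rw [hsq]; exact integrable_finsetSum _ fun j _ => integrable_finsetSum _ fun k _ => hpair j k
  have h2 : ∫ x, T x ^ 2 ∂nu l ≤ mu ^ 2 + V := by
    refine le_of_eq_of_le ?_ hV
    rw [hsq, integral_finsetSum _ fun j _ => integrable_finsetSum _ fun k _ => hpair j k]
    refine Finset.sum_congr rfl fun j _ => ?_
    rw [integral_finsetSum _ fun k _ => hpair j k]
    refine Finset.sum_congr rfl fun k _ => ?_
    rw [integral_const_mul, integral_div, integral_add (hcos _) (hcos _), phi, phi]
  have hd : (fun x => (T x - mu) ^ 2) = fun x => T x ^ 2 - 2 * mu * T x + mu ^ 2 :=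
    funext fun x => by ring
  have hvi : Integrable (fun x => (T x - mu) ^ 2) (nu l) := by
    rw [hd]; exact (hT2i.sub (hTi.const_mul _)).add (integrable_const _)
  have hsub : Integrable (fun x => T x ^ 2 - 2 * mu * T x) (nu l) := hT2i.sub (hTi.const_mul _)
  have hvar : ∫ x, (T x - mu) ^ 2 ∂nu l ≤ V := by
    rw [hd, integral_add hsub (integrable_const _), integral_sub hT2i (hTi.const_mul _),
      integral_const_mul, h1, integral_const, probReal_univ, one_smul]
    linarith
  refine ⟨A ∩ {x | mu / 2 ≤ T x},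
    (hA ▸ measurableSet_Icc).inter (measurableSet_le measurable_const hTc.measurable), ?_, ?_⟩
  · have hm := mul_meas_ge_le_integral_of_nonneg
      (Eventually.of_forall fun x => sq_nonneg (T x - mu)) hvi (mu ^ 2 / 4)
    rw [mul_comm, ← le_div_iff₀ (by positivity)] at hm
    rw [← ofReal_measureReal]
    refine ENNReal.ofReal_le_ofReal ?_
    calc (nu l).real (A ∩ {x | mu / 2 ≤ T x})ᶜ
        ≤ (nu l).real {x | mu ^ 2 / 4 ≤ (T x - mu) ^ 2} := by
          refine ENNReal.toReal_mono (measure_ne_top _ _) (measure_mono_ae ?_)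
          filter_upwards [nu_support hl0.le hl1] with x hx hxF
          have hxA : x ∈ A := hA ▸ abs_le.1 hx
          have : T x < mu / 2 := not_le.1 fun h => hxF ⟨hxA, h⟩
          show mu ^ 2 / 4 ≤ (T x - mu) ^ 2
          have h5 := pow_le_pow_left₀ (by linarith) (show mu / 2 ≤ mu - T x by linarith) 2
          linarith
      _ ≤ (∫ x, (T x - mu) ^ 2 ∂nu l) / (mu ^ 2 / 4) := hm
      _ ≤ V / (mu ^ 2 / 4) := div_le_div_of_nonneg_right hvar (by positivity)
      _ = 4 * V / mu ^ 2 := by field_simp
  · haveI : IsFiniteMeasure (volume.restrict A) := ⟨by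
      rw [Measure.restrict_apply_univ, hA]; exact measure_Icc_lt_top⟩
    have hcc : ∀ j k, Integrable (fun x => u j * u k * (Real.cos (ξ j * x) * Real.cos (ξ k * x)))
        (volume.restrict A) := fun j k => by
      rw [hA]
      exact (by fun_prop : Continuous fun x : ℝ =>
        u j * u k * (Real.cos (ξ j * x) * Real.cos (ξ k * x))).integrableOn_Icc
    have hsq' : (fun x => T x ^ 2) = fun x => ∑ j ∈ S, ∑ k ∈ S,
        u j * u k * (Real.cos (ξ j * x) * Real.cos (ξ k * x)) := funext fun x => by
      rw [hT, pow_two, Finset.sum_mul_sum]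
      exact Finset.sum_congr rfl fun j _ => Finset.sum_congr rfl fun k _ => by ring
    have hLi : Integrable (fun x => T x ^ 2) (volume.restrict A) := by
      rw [hsq']; exact integrable_finsetSum _ fun j _ => integrable_finsetSum _ fun k _ => hcc j k
    have h3 : ∫ x, T x ^ 2 ∂volume.restrict A ≤ L := by
      refine le_trans ?_ hL
      rw [hsq', integral_finsetSum _ fun j _ => integrable_finsetSum _ fun k _ => hcc j k]
      refine Finset.sum_le_sum fun j _ => ?_
      rw [integral_finsetSum _ fun k _ => hcc j k]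
      refine Finset.sum_le_sum fun k _ => ?_
      rw [integral_const_mul, ← abs_mul]
      exact le_abs_self _
    have hm := mul_meas_ge_le_integral_of_nonneg
      (Eventually.of_forall fun x => sq_nonneg (T x)) hLi (mu ^ 2 / 4)
    rw [mul_comm, ← le_div_iff₀ (by positivity)] at hm
    calc volume (A ∩ {x | mu / 2 ≤ T x})
        ≤ (volume.restrict A) {x | mu ^ 2 / 4 ≤ T x ^ 2} := by
          have hm2 : MeasurableSet {x | mu ^ 2 / 4 ≤ T x ^ 2} :=
            measurableSet_le measurable_const (hTc.pow 2).measurable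
          rw [Measure.restrict_apply hm2, Set.inter_comm A]
          refine measure_mono (Set.inter_subset_inter_left _ fun x (hx : mu / 2 ≤ T x) => ?_)
          show mu ^ 2 / 4 ≤ T x ^ 2
          have h5 := pow_le_pow_left₀ (by linarith) hx 2
          linarith
      _ ≤ ENNReal.ofReal (4 * L / mu ^ 2) := by
          rw [← ofReal_measureReal]
          refine ENNReal.ofReal_le_ofReal
            ((hm.trans (div_le_div_of_nonneg_right h3 (by positivity))).trans (le_of_eq ?_))
          field_simp

/-- A criterion for singularity. -/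
theorem singular_of_test_sets {l : ℝ} (hl0 : 0 < l) (hl1 : l < 1)
    (h : ∀ η : ℝ, 0 < η → ∃ F : Set ℝ, MeasurableSet F ∧ nu l Fᶜ ≤ ENNReal.ofReal η ∧
      volume F ≤ ENNReal.ofReal η) : Singular l := by
  haveI := isProbability_nu hl0.le hl1
  choose F hFm hFn hFv using fun n : ℕ => h ((1 / 2) ^ n) (by positivity)
  have hsum : ∑' n : ℕ, ENNReal.ofReal ((1 / 2 : ℝ) ^ n) ≠ ∞ := by
    rw [← ENNReal.ofReal_tsum_of_nonneg (fun n => by positivity) summable_geometric_two]
    exact ENNReal.ofReal_ne_top
  refine ⟨limsup F atTop, MeasurableSet.measurableSet_limsup hFm,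
    measure_limsup_atTop_eq_zero (ne_top_of_le_ne_top hsum (ENNReal.tsum_le_tsum hFv)), ?_⟩
  have h0 := measure_limsup_atTop_eq_zero (μ := nu l) (s := fun n => (F n)ᶜ)
    (ne_top_of_le_ne_top hsum (ENNReal.tsum_le_tsum hFn))
  refine (prob_compl_eq_zero_iff (MeasurableSet.measurableSet_limsup hFm)).1 ?_
  refine measure_mono_null (fun x hx => ?_) h0
  rw [Set.mem_compl_iff, mem_limsup_iff_frequently_mem, not_frequently] at hx
  rw [mem_limsup_iff_frequently_mem]
  exact hx.frequently

end Vale.Agent.P105
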