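import Vale.Agent.P105.Sequence
import Vale.Agent.P105.Prob

/-!
The cosine test at a stage, and singularity.
-/

namespace Vale.Agent.P105

open Real Finset Filter MeasureTheory
open scoped Topology

namespace Setup

variable (P : Setup)

/-- The exponent constant of the pair correlation. -/
noncomputable def corr (C0 : ℝ) : ℝ := 20 / P.m * (P.geo + 6 * C0 + 18)

/-- The contraction ratio. -/
noncomputable def lam : ℝ := P.β⁻¹

theorem lam_pos : 0 < P.lam := inv_pos.mpr P.β_pos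

theorem lam_lt_one : P.lam < 1 := inv_lt_one_of_one_lt₀ P.hβ

theorem corr_nonneg {C0 : ℝ} (hC : P.GoodC C0) : 0 ≤ P.corr C0 := by
  have := P.m_pos
  have := P.geo_pos
  have : (0 : ℝ) ≤ C0 := le_trans (by norm_num) hC.1
  unfold corr
  positivity

end Setup

namespace Stage

variable {P : Setup} {C0 r w t b : ℝ} {a : ℂ} {K : ℕ}

theorem cos_freq (P : Setup) (t : ℝ) (j k : ℕ) :
    π * t * P.β ^ j * P.lam ^ k = π * X P.β t ((j : ℤ) - k) := by
  rw [X, zpow_sub₀ P.β_pos.ne', zpow_natCast, zpow_natCast, Setup.lam, inv_pow, div_eq_mul_inv]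
  ring

theorem tendsto_abs_prod (P : Setup) (t : ℝ) (j : ℕ) :
    Tendsto (fun M : ℕ => ∏ k ∈ range M, |c P.β t ((j : ℤ) - k)|) atTop
      (𝓝 |phi P.lam (π * t * P.β ^ j)|) := by
  have h := (tendsto_prod_phi P.lam_pos P.lam_lt_one (π * t * P.β ^ j)).abs
  refine h.congr fun M => ?_
  rw [Finset.abs_prod]
  exact Finset.prod_congr rfl fun k _ => by rw [cos_freq, c]

theorem le_abs_phi (h : Stage P C0 r w t b a K) {j : ℕ} (hj : (j : ℝ) ≤ 1 / r ^ 6) :
    w ≤ |phi P.lam (π * t * P.β ^ j)| := by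
  refine ge_of_tendsto' (tendsto_abs_prod P t j) fun M => ?_
  have hinj : Set.InjOn (fun k : ℕ => (j : ℤ) - k) (range M : Finset ℕ) := by
    intro x _ y _ hxy
    simp only at hxy
    omega
  rw [← Finset.prod_image (f := fun i => |c P.β t i|) hinj]
  refine h.w_le _ fun i hi => ?_
  obtain ⟨k, -, rfl⟩ := Finset.mem_image.mp hi
  have h1 : (((j : ℤ) - (k : ℤ) : ℤ) : ℝ) ≤ (j : ℝ) := by
    push_cast
    linarith [(Nat.cast_nonneg k : (0 : ℝ) ≤ (k : ℝ))]
  unfold Setup.J
  linarith [(Nat.cast_nonneg (P.nOf r) : (0 : ℝ) ≤ (P.nOf r : ℝ))]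

/-- Correlations of far apart frequencies factor. -/
theorem abs_phi_pair_le (h : Stage P C0 r w t b a K) (hC : P.GoodC C0) {j k : ℕ}
    (hjk : j + (K + 2 * P.nOf r) ≤ k) (hj : (j : ℝ) ≤ 1 / r ^ 6) :
    |phi P.lam (π * t * P.β ^ k - π * t * P.β ^ j)| ≤
        Real.exp (P.corr C0 * r ^ 2) *
          (|phi P.lam (π * t * P.β ^ k)| * |phi P.lam (π * t * P.β ^ j)|) ∧
      |phi P.lam (π * t * P.β ^ k + π * t * P.β ^ j)| ≤
        Real.exp (P.corr C0 * r ^ 2) *
          (|phi P.lam (π * t * P.β ^ k)| * |phi P.lam (π * t * P.β ^ j)|) := by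
  set Δ : ℤ := (k : ℤ) - j with hΔ
  have hgap : (K : ℤ) + 2 * P.nOf r ≤ Δ := by omega
  have hr0 := h.r_pos
  have key : ∀ (M : ℕ) (g : ℤ → ℝ), (∀ i, |g i| ≤ |c P.β t i * c P.β t (i + Δ)| +
      |s P.β t i * s P.β t (i + Δ)|) →
      ∏ m ∈ range M, |g ((j : ℤ) - m)| ≤ Real.exp (P.corr C0 * r ^ 2) *
        ((∏ m ∈ range M, |c P.β t ((k : ℤ) - m)|) * ∏ m ∈ range M, |c P.β t ((j : ℤ) - m)|) := by
    intro M g hg
    set e : ℕ → ℝ := fun m =>
      20 / P.m * (D P.β t ((j : ℤ) - m) * D P.β t ((j : ℤ) - m + Δ)) with he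
    have hsum : ∑ m ∈ range M, e m ≤ P.corr C0 * r ^ 2 := by
      have hinj : Set.InjOn (fun m : ℕ => (j : ℤ) - m) (range M : Finset ℕ) := by
        intro x _ y _ hxy
        simp only at hxy
        omega
      have h1 := h.cross hgap (S := (range M).image fun m : ℕ => (j : ℤ) - m)
        (L := 1 / r ^ 6) (by positivity) (by
          intro i hi
          obtain ⟨m, -, rfl⟩ := Finset.mem_image.mp hi
          push_cast
          linarith [(Nat.cast_nonneg m : (0 : ℝ) ≤ (m : ℝ))])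
      rw [Finset.sum_image hinj] at h1
      rw [he, ← Finset.mul_sum, Setup.corr, mul_assoc]
      refine mul_le_mul_of_nonneg_left (h1.trans ?_) (by have := P.m_pos; positivity)
      have a1 : r ^ 6 ≤ r ^ 2 := pow_le_pow_of_le_one hr0.le h.r_le_one (by norm_num)
      have a2 := mul_le_mul_of_nonneg_right (h.gap_le hC (k := 4) le_rfl) (sq_nonneg r)
      have a3 : (r ^ 6) ^ 2 * (1 / r ^ 6 + 1) = r ^ 6 + r ^ 12 := by field_simp
      have a4 : r ^ 12 ≤ r ^ 2 := pow_le_pow_of_le_one hr0.le h.r_le_one (by norm_num)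
      have a5 := mul_le_mul_of_nonneg_left a1 P.geo_pos
      nlinarith
    calc ∏ m ∈ range M, |g ((j : ℤ) - m)|
        ≤ ∏ m ∈ range M,
            Real.exp (e m) * (|c P.β t ((k : ℤ) - m)| * |c P.β t ((j : ℤ) - m)|) := by
          refine Finset.prod_le_prod (fun m _ => abs_nonneg _) fun m _ => ?_
          obtain ⟨h1, -⟩ := h.pair hgap ((j : ℤ) - m)
          have e1 : (j : ℤ) - m + Δ = (k : ℤ) - m := by rw [hΔ]; ring
          refine (hg _).trans ?_
          simp only [he, e1] at h1 ⊢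
          rw [abs_mul (c P.β t ((j : ℤ) - m))] at h1 ⊢
          have e2 := Real.add_one_le_exp
            (20 / P.m * (D P.β t ((j : ℤ) - m) * D P.β t ((k : ℤ) - m)))
          have e3 : 0 ≤ |c P.β t ((k : ℤ) - m)| * |c P.β t ((j : ℤ) - m)| := by positivity
          nlinarith
      _ = Real.exp (∑ m ∈ range M, e m) *
            ((∏ m ∈ range M, |c P.β t ((k : ℤ) - m)|) *
              ∏ m ∈ range M, |c P.β t ((j : ℤ) - m)|) := by
          rw [Finset.prod_mul_distrib, Finset.prod_mul_distrib, Real.exp_sum]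
      _ ≤ _ := mul_le_mul_of_nonneg_right (Real.exp_le_exp.mpr hsum)
          (mul_nonneg (Finset.prod_nonneg fun _ _ => abs_nonneg _)
            (Finset.prod_nonneg fun _ _ => abs_nonneg _))
  have lim : ∀ (ξ : ℝ) (g : ℤ → ℝ),
      (∀ m : ℕ, Real.cos (ξ * P.lam ^ m) = g ((j : ℤ) - m)) →
      (∀ i, |g i| ≤ |c P.β t i * c P.β t (i + Δ)| + |s P.β t i * s P.β t (i + Δ)|) →
      |phi P.lam ξ| ≤ Real.exp (P.corr C0 * r ^ 2) *
          (|phi P.lam (π * t * P.β ^ k)| * |phi P.lam (π * t * P.β ^ j)|) := by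
    intro ξ g hg1 hg2
    refine le_of_tendsto_of_tendsto' (tendsto_prod_phi P.lam_pos P.lam_lt_one ξ).abs
      (((tendsto_abs_prod P t k).mul (tendsto_abs_prod P t j)).const_mul _) fun M => ?_
    rw [Finset.abs_prod, Finset.prod_congr rfl fun m _ => by rw [hg1 m]]
    exact key M g hg2
  have hsplit : ∀ m : ℕ, (k : ℤ) - m = (j : ℤ) - m + Δ := fun m => by rw [hΔ]; ring
  constructor
  · refine lim _ (fun i => c P.β t (i + Δ) * c P.β t i + s P.β t (i + Δ) * s P.β t i)
      (fun m => ?_) fun i => ?_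
    · rw [sub_mul, cos_freq, cos_freq, Real.cos_sub, hsplit m]
      rfl
    · rw [mul_comm (c P.β t i), mul_comm (s P.β t i)]
      exact abs_add_le _ _
  · refine lim _ (fun i => c P.β t (i + Δ) * c P.β t i - s P.β t (i + Δ) * s P.β t i)
      (fun m => ?_) fun i => ?_
    · rw [add_mul, cos_freq, cos_freq, Real.cos_add, hsplit m]
      rfl
    · rw [mul_comm (c P.β t i), mul_comm (s P.β t i)]
      exact abs_sub _ _

end Stage

theorem phi_abs_le_one {l : ℝ} (hl0 : 0 < l) (hl1 : l < 1) (ξ : ℝ) : |phi l ξ| ≤ 1 := by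
  refine le_of_tendsto' (tendsto_prod_phi hl0 hl1 ξ).abs fun M => ?_
  rw [Finset.abs_prod]
  exact Finset.prod_le_one (fun _ _ => abs_nonneg _) fun _ _ => Real.abs_cos_le_one _

theorem phi_abs_neg {l : ℝ} (hl0 : 0 < l) (hl1 : l < 1) (ξ : ℝ) : phi l (-ξ) = phi l ξ := by
  refine tendsto_nhds_unique (tendsto_prod_phi hl0 hl1 (-ξ)) ?_
  refine (tendsto_prod_phi hl0 hl1 ξ).congr fun M => ?_
  exact Finset.prod_congr rfl fun k _ => by rw [neg_mul, Real.cos_neg]

/-- The number of close pairs. -/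
theorem sum_close_le (N G : ℕ) :
    ∑ j ∈ range N, ∑ k ∈ range N, (if j < k + G ∧ k < j + G then (1 : ℝ) else 0) ≤
      2 * (G : ℝ) * N := by
  have h : ∀ j ∈ range N,
      ∑ k ∈ range N, (if j < k + G ∧ k < j + G then (1 : ℝ) else 0) ≤ 2 * (G : ℝ) := by
    intro j _
    rw [Finset.sum_boole]
    have h1 : (range N).filter (fun k => j < k + G ∧ k < j + G) ⊆ Finset.Ico (j - G) (j + G) := by
      intro k hk
      simp only [Finset.mem_filter] at hk
      rw [Finset.mem_Ico]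
      omega
    have h2 := Finset.card_le_card h1
    rw [Nat.card_Ico] at h2
    have h3 : (((range N).filter (fun k => j < k + G ∧ k < j + G)).card : ℝ) ≤ ((2 * G : ℕ) : ℝ) :=
      by exact_mod_cast le_trans h2 (by omega)
    push_cast at h3
    exact h3
  refine le_trans (Finset.sum_le_sum h) ?_
  rw [Finset.sum_const, Finset.card_range, nsmul_eq_mul]
  linarith

/-- The interval `L²` bound of lacunary cosines. -/
theorem sum_integral_le (P : Setup) {t : ℝ} (ht : P.t0 ≤ |t|) (u : ℕ → ℝ) (hu : ∀ j, |u j| ≤ 1)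
    {R : ℝ} (hR : 0 ≤ R) (N : ℕ) :
    ∑ j ∈ range N, ∑ k ∈ range N, |u j * u k| *
        |∫ x in Set.Icc (-R) R, Real.cos (π * t * P.β ^ j * x) * Real.cos (π * t * P.β ^ k * x)|
      ≤ (2 * R + 4 / (P.t0 * (P.β - 1)) * P.geo) * N := by
  set κ := 2 / (P.t0 * (P.β - 1)) with hκ
  have hb1 : 0 < P.β - 1 := by linarith [P.hβ]
  have hκ0 : 0 ≤ κ := by have := P.ht0; positivity
  set I : ℕ → ℕ → ℝ := fun j k =>
    |∫ x in Set.Icc (-R) R, Real.cos (π * t * P.β ^ j * x) * Real.cos (π * t * P.β ^ k * x)|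
    with hI
  have hint : ∀ j k, I j k ≤ (if j = k then 2 * R else 0) + κ * (P.lam ^ j + P.lam ^ k) := by
    intro j k
    have hl0 : 0 ≤ κ * (P.lam ^ j + P.lam ^ k) := by
      have := P.lam_pos
      positivity
    rcases eq_or_ne j k with rfl | hjk
    · rw [if_pos rfl]
      have h1 : ‖∫ x in Set.Icc (-R) R,
          Real.cos (π * t * P.β ^ j * x) * Real.cos (π * t * P.β ^ j * x)‖ ≤
          1 * (volume : Measure ℝ).real (Set.Icc (-R) R) := by
        refine norm_setIntegral_le_of_norm_le_const (by simp) fun x _ => ?_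
        rw [Real.norm_eq_abs, abs_mul]
        exact mul_le_one₀ (Real.abs_cos_le_one _) (abs_nonneg _) (Real.abs_cos_le_one _)
      rw [Real.norm_eq_abs, Real.volume_real_Icc_of_le (by linarith)] at h1
      simp only [hI]
      linarith
    · rw [if_neg hjk, zero_add]
      have hgen : ∀ j k : ℕ, j < k →
          P.t0 * (P.β - 1) * P.β ^ j ≤ |π * t * P.β ^ j - π * t * P.β ^ k| ∧
          P.t0 * (P.β - 1) * P.β ^ j ≤ |π * t * P.β ^ j + π * t * P.β ^ k| := by
        intro j k hlt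
        have h1 : P.β ^ j * P.β ≤ P.β ^ k := by
          rw [← pow_succ]; exact pow_le_pow_right₀ P.hβ.le hlt
        have h2 : 0 < P.β ^ j := pow_pos P.β_pos j
        have h3 : P.t0 ≤ π * |t| := by
          calc P.t0 ≤ |t| := ht
            _ ≤ π * |t| := le_mul_of_one_le_left (abs_nonneg _) (by linarith [Real.pi_gt_three])
        have h4 : ∀ z : ℝ, (P.β - 1) * P.β ^ j ≤ |z| →
            P.t0 * (P.β - 1) * P.β ^ j ≤ |π * t * z| := by
          intro z hz
          rw [abs_mul, abs_mul, abs_of_pos Real.pi_pos, mul_assoc]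
          exact mul_le_mul h3 hz (by positivity) (by positivity)
        constructor
        · rw [← mul_sub]
          refine h4 _ ?_
          rw [abs_sub_comm]
          exact le_trans (by linarith) (le_abs_self _)
        · rw [← mul_add]
          refine h4 _ ?_
          exact le_trans (by nlinarith) (le_abs_self _)
      have hne : ∀ z : ℝ, ∀ i : ℕ, P.t0 * (P.β - 1) * P.β ^ i ≤ |z| →
          z ≠ 0 ∧ 1 / |z| ≤ κ / 2 * P.lam ^ i := by
        intro z i hz
        have hp : 0 < P.t0 * (P.β - 1) * P.β ^ i := by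
          have := P.ht0; have := P.β_pos; positivity
        refine ⟨fun h0 => by rw [h0, abs_zero] at hz; linarith, ?_⟩
        refine le_trans (one_div_le_one_div_of_le hp hz) (le_of_eq ?_)
        rw [hκ, Setup.lam, inv_pow]
        field_simp
      rcases lt_or_gt_of_ne hjk with hlt | hlt
      · obtain ⟨g1, g2⟩ := hgen j k hlt
        obtain ⟨n1, b1⟩ := hne _ _ g1
        obtain ⟨n2, b2⟩ := hne _ _ g2
        refine le_trans (abs_integral_cos_mul_cos_le hR n1 n2) ?_
        have := pow_nonneg P.lam_pos.le k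
        nlinarith
      · obtain ⟨g1, g2⟩ := hgen k j hlt
        rw [abs_sub_comm] at g1
        rw [add_comm (π * t * P.β ^ k)] at g2
        obtain ⟨n1, b1⟩ := hne _ _ g1
        obtain ⟨n2, b2⟩ := hne _ _ g2
        refine le_trans (abs_integral_cos_mul_cos_le hR n1 n2) ?_
        have := pow_nonneg P.lam_pos.le j
        nlinarith
  have hgeo : ∑ j ∈ range N, P.lam ^ j ≤ P.geo := by
    refine le_trans (Summable.sum_le_tsum _ (fun _ _ => pow_nonneg P.lam_pos.le _)
      (summable_geometric_of_lt_one P.lam_pos.le P.lam_lt_one)) (le_of_eq ?_)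
    have hb : 1 - P.β⁻¹ = (P.β - 1) / P.β := by
      field_simp [P.β_pos.ne']
    rw [tsum_geometric_of_lt_one P.lam_pos.le P.lam_lt_one, Setup.lam, Setup.geo, hb, inv_div]
  calc ∑ j ∈ range N, ∑ k ∈ range N, |u j * u k| * I j k
      ≤ ∑ j ∈ range N, ∑ k ∈ range N,
          ((if j = k then 2 * R else 0) + κ * (P.lam ^ j + P.lam ^ k)) := by
        refine Finset.sum_le_sum fun j _ => Finset.sum_le_sum fun k _ => ?_
        refine le_trans (mul_le_of_le_one_left (abs_nonneg _) ?_) (hint j k)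
        rw [abs_mul]
        exact mul_le_one₀ (hu j) (abs_nonneg _) (hu k)
    _ = 2 * R * N + 2 * κ * N * ∑ j ∈ range N, P.lam ^ j := by
        simp only [Finset.sum_add_distrib, mul_add, Finset.sum_const, Finset.card_range,
          nsmul_eq_mul]
        rw [Finset.sum_congr rfl fun j hj => Finset.sum_ite_eq (range N) j fun _ => 2 * R]
        rw [Finset.sum_congr rfl fun j hj => if_pos hj, Finset.sum_const, Finset.card_range,
          nsmul_eq_mul, ← Finset.mul_sum, ← Finset.mul_sum]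
        ring
    _ ≤ 2 * R * N + 2 * κ * N * P.geo := by
        have : 0 ≤ 2 * κ * (N : ℝ) := by positivity
        nlinarith
    _ = _ := by rw [hκ]; ring

/-- A sign of a real number. -/
noncomputable def sgn (x : ℝ) : ℝ := if 0 ≤ x then 1 else -1

theorem sgn_mul_self (x : ℝ) : sgn x * x = |x| := by
  unfold sgn
  split_ifs with h
  · rw [one_mul, abs_of_nonneg h]
  · rw [abs_of_neg (not_le.mp h)]; ring

theorem abs_sgn (x : ℝ) : |sgn x| = 1 := by
  unfold sgn; split_ifs <;> simp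

/-- The test set of a stage. -/
theorem Stage.test_set {P : Setup} {C0 r w t b : ℝ} {a : ℂ} {K : ℕ}
    (h : Stage P C0 r w t b a K) (hC : P.GoodC C0) (hsmall : P.corr C0 * r ^ 2 ≤ 1) :
    ∃ F : Set ℝ, MeasurableSet F ∧
      nu P.lam Fᶜ ≤ ENNReal.ofReal ((8 * P.corr C0 + 32 * C0) * (r / w) ^ 2) ∧
      volume F ≤ ENNReal.ofReal
        (8 * (2 / (1 - P.lam) + 4 / (P.t0 * (P.β - 1)) * P.geo) * (r / w) ^ 2) := by
  have hr0 := h.r_pos
  have hw0 := h.w_pos
  set A := r ^ 6 with hA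
  have hA0 : 0 < A := pow_pos hr0 6
  have hA1 : A ≤ 1 := pow_le_one₀ hr0.le h.r_le_one
  set N := ⌊1 / A⌋₊ with hN
  have hN1 : (N : ℝ) ≤ 1 / A := Nat.floor_le (by positivity)
  have hNlow : 1 ≤ 2 * A * N := by
    have h1 := Nat.lt_floor_add_one (1 / A)
    rw [← hN, div_lt_iff₀ hA0] at h1
    have h2 : (1 : ℝ) ≤ N := by
      have : 1 ≤ N := by rw [hN, Nat.one_le_floor_iff, le_div_iff₀ hA0]; linarith
      exact_mod_cast this
    nlinarith
  have hNpos : (0 : ℝ) < N := by nlinarith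
  set ξ : ℕ → ℝ := fun j => π * t * P.β ^ j with hξ
  set φ : ℕ → ℝ := fun j => phi P.lam (ξ j) with hφ
  set u : ℕ → ℝ := fun j => sgn (φ j) with hu
  set mu := ∑ j ∈ range N, |φ j| with hmu
  have hjle : ∀ j ∈ range N, (j : ℝ) ≤ 1 / r ^ 6 := fun j hj =>
    le_trans (by exact_mod_cast (Finset.mem_range.mp hj).le) hN1
  have hmuN : (N : ℝ) * w ≤ mu := by
    calc (N : ℝ) * w = ∑ j ∈ range N, w := by rw [Finset.sum_const, Finset.card_range, nsmul_eq_mul]
      _ ≤ mu := Finset.sum_le_sum fun j hj => h.le_abs_phi (hjle j hj)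
  have hmu0 : 0 < mu := lt_of_lt_of_le (by positivity) hmuN
  set G := K + 2 * P.nOf r with hG
  set E := P.corr C0 * r ^ 2 with hE
  have hE0 : 0 ≤ E := by have := P.corr_nonneg hC; positivity
  have hlp := P.lam_pos
  have hl1 := P.lam_lt_one
  have hpair : ∀ j ∈ range N, ∀ k ∈ range N,
      u j * u k * ((phi P.lam (ξ j - ξ k) + phi P.lam (ξ j + ξ k)) / 2) ≤
        Real.exp E * (|φ j| * |φ k|) + (if j < k + G ∧ k < j + G then (1 : ℝ) else 0) := by
    intro j hj k hk
    have hub : |u j * u k| = 1 := by rw [abs_mul, hu, abs_sgn, abs_sgn, one_mul]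
    refine le_trans (le_abs_self _) ?_
    rw [abs_mul, hub, one_mul, abs_div, abs_two]
    have hpos : 0 ≤ Real.exp E * (|φ j| * |φ k|) := by positivity
    by_cases hclose : j < k + G ∧ k < j + G
    · rw [if_pos hclose]
      have := abs_add_le (phi P.lam (ξ j - ξ k)) (phi P.lam (ξ j + ξ k))
      have := phi_abs_le_one hlp hl1 (ξ j - ξ k)
      have := phi_abs_le_one hlp hl1 (ξ j + ξ k)
      linarith
    · rw [if_neg hclose, add_zero]
      have hh : |phi P.lam (ξ j - ξ k)| ≤ Real.exp E * (|φ j| * |φ k|) ∧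
          |phi P.lam (ξ j + ξ k)| ≤ Real.exp E * (|φ j| * |φ k|) := by
        rcases not_and_or.mp hclose with hc | hc
        · obtain ⟨h1, h2⟩ := h.abs_phi_pair_le hC (j := k) (k := j) (by omega) (hjle k hk)
          exact ⟨h1, h2⟩
        · obtain ⟨h1, h2⟩ := h.abs_phi_pair_le hC (j := j) (k := k) (by omega) (hjle j hj)
          rw [← neg_sub (ξ k), phi_abs_neg hlp hl1, add_comm (ξ j) (ξ k), mul_comm |φ j|]
          exact ⟨h1, h2⟩
      have := abs_add_le (phi P.lam (ξ j - ξ k)) (phi P.lam (ξ j + ξ k))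
      linarith [hh.1, hh.2]
  set V := (Real.exp E - 1) * mu ^ 2 + 2 * (G : ℝ) * N with hV
  have hVbound : ∑ j ∈ range N, ∑ k ∈ range N,
      u j * u k * ((phi P.lam (ξ j - ξ k) + phi P.lam (ξ j + ξ k)) / 2) ≤ mu ^ 2 + V := by
    refine le_trans (Finset.sum_le_sum fun j hj => Finset.sum_le_sum (hpair j hj)) ?_
    simp only [Finset.sum_add_distrib]
    have e1 : ∑ j ∈ range N, ∑ k ∈ range N, Real.exp E * (|φ j| * |φ k|) =
        Real.exp E * mu ^ 2 := by
      rw [hmu, sq, Finset.sum_mul_sum, Finset.mul_sum]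
      exact Finset.sum_congr rfl fun j _ => by rw [Finset.mul_sum]
    have e2 := sum_close_le N G
    rw [e1, hV]
    linarith
  set R := 1 / (1 - P.lam) with hR
  have hR0 : 0 ≤ R := by
    have : 0 < 1 - P.lam := by linarith
    positivity
  have hLbound := sum_integral_le P h.t_ge u (fun j => (abs_sgn _).le) hR0 N
  obtain ⟨F, hFm, hF1, hF2⟩ := exists_test_set hlp hl1 (range N) u ξ
    (mu := mu) (V := V) (L := (2 * R + 4 / (P.t0 * (P.β - 1)) * P.geo) * N)
    (Finset.sum_congr rfl fun j _ => (sgn_mul_self (φ j)).symm) hmu0 hVbound hLbound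
  have hkey : (N : ℝ) / mu ^ 2 ≤ 2 * (A / w ^ 2) := by
    calc (N : ℝ) / mu ^ 2 ≤ (N : ℝ) / ((N : ℝ) * w) ^ 2 :=
          div_le_div_of_nonneg_left hNpos.le (by positivity)
            (pow_le_pow_left₀ (by positivity) hmuN 2)
      _ = 1 / ((N : ℝ) * w ^ 2) := by field_simp
      _ ≤ _ := by
          rw [div_le_iff₀ (by positivity)]
          calc 1 ≤ 2 * A * N := hNlow
            _ = 2 * (A / w ^ 2) * ((N : ℝ) * w ^ 2) := by field_simp
  have hrw : A / w ^ 2 ≤ (r / w) ^ 2 := by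
    rw [div_pow]
    exact div_le_div_of_nonneg_right (pow_le_pow_of_le_one hr0.le h.r_le_one (by norm_num))
      (by positivity)
  refine ⟨F, hFm, le_trans hF1 (ENNReal.ofReal_le_ofReal ?_),
    le_trans hF2 (ENNReal.ofReal_le_ofReal ?_)⟩
  · have e1 : 4 * V / mu ^ 2 = 4 * (Real.exp E - 1) + 8 * (G : ℝ) * ((N : ℝ) / mu ^ 2) := by
      rw [hV]; field_simp; ring
    have e2 : Real.exp E - 1 ≤ 2 * E := by
      have := Real.abs_exp_sub_one_le (x := E) (by rwa [abs_of_nonneg hE0])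
      rw [abs_of_nonneg hE0] at this
      exact (abs_le.mp this).2
    have hgap := h.gap_le hC (k := 4) le_rfl
    have e3 : (G : ℝ) * ((N : ℝ) / mu ^ 2) ≤ 4 * C0 * (r / w) ^ 2 := by
      have hGR : (G : ℝ) = (K : ℝ) + 2 * P.nOf r := by rw [hG]; push_cast; ring
      calc (G : ℝ) * ((N : ℝ) / mu ^ 2) ≤ (G : ℝ) * (2 * (A / w ^ 2)) :=
            mul_le_mul_of_nonneg_left hkey (Nat.cast_nonneg _)
        _ = 2 * (((K : ℝ) + 2 * P.nOf r) * r ^ 4) * (r / w) ^ 2 := by
            rw [hGR, hA]; ring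
        _ ≤ 2 * (2 * C0) * (r / w) ^ 2 :=
            mul_le_mul_of_nonneg_right (by linarith) (by positivity)
        _ = _ := by ring
    have e4 : r ^ 2 ≤ (r / w) ^ 2 := by
      rw [div_pow, le_div_iff₀ (by positivity)]
      exact mul_le_of_le_one_right (sq_nonneg r) (pow_le_one₀ hw0.le h.w_le_one)
    have e5 : E ≤ P.corr C0 * (r / w) ^ 2 := mul_le_mul_of_nonneg_left e4 (P.corr_nonneg hC)
    rw [e1]
    linarith
  · have hcoef : 0 ≤ 2 * R + 4 / (P.t0 * (P.β - 1)) * P.geo := by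
      have := P.ht0; have := P.geo_pos; have : 0 < P.β - 1 := by linarith [P.hβ]
      positivity
    have h2R : 2 / (1 - P.lam) = 2 * R := by rw [hR]; ring
    rw [h2R]
    calc 4 * ((2 * R + 4 / (P.t0 * (P.β - 1)) * P.geo) * N) / mu ^ 2
        = 4 * (2 * R + 4 / (P.t0 * (P.β - 1)) * P.geo) * ((N : ℝ) / mu ^ 2) := by ring
      _ ≤ 4 * (2 * R + 4 / (P.t0 * (P.β - 1)) * P.geo) * (2 * (r / w) ^ 2) :=
          mul_le_mul_of_nonneg_left (hkey.trans (by linarith)) (by positivity)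
      _ = _ := by ring

/-- A starting orbit gives a singular Bernoulli convolution. -/
theorem singular_of_orbit (P : Setup) {r t b : ℝ} {a : ℂ} (hr : 0 < r) (hr1 : r ≤ 31 / 100)
    (ht : P.t0 ≤ |t|) (hb : |b| ≤ P.B) (ha : ‖a‖ ≤ r ^ 6) (hrel : Rel P.β P.ζ t b a)
    (hc : ∀ i : ℤ, P.m + 22 * r ^ 6 ≤ |c P.β t i|) : Singular P.β⁻¹ := by
  obtain ⟨C0, w, K, hC, h0⟩ := exists_start P hr hr1 ht hb ha hrel hc
  refine singular_of_test_sets P.lam_pos P.lam_lt_one fun η hη => ?_
  set C1 := 8 * P.corr C0 + 32 * C0 + P.corr C0 + 1 +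
    |8 * (2 / (1 - P.lam) + 4 / (P.t0 * (P.β - 1)) * P.geo)| with hC1
  have hc0 := P.corr_nonneg hC
  have hC00 : 0 ≤ C0 := le_trans (by norm_num) hC.1
  have habs := abs_nonneg (8 * (2 / (1 - P.lam) + 4 / (P.t0 * (P.β - 1)) * P.geo))
  have hC1pos : 1 ≤ C1 := by rw [hC1]; linarith
  set q := min η 1 / C1 with hq
  have hq0 : 0 < q := div_pos (lt_min hη one_pos) (by linarith)
  have hq1 : q ≤ 1 := by
    rw [hq, div_le_one (by linarith)]
    exact le_trans (min_le_right _ _) hC1pos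
  obtain ⟨r', w', t', b', a', K', h', hrw⟩ := exists_stage_small P hC h0 hq0
  have hrw0 : 0 ≤ r' / w' := (div_pos h'.r_pos h'.w_pos).le
  have hsq : (r' / w') ^ 2 ≤ q :=
    le_trans (pow_le_pow_left₀ hrw0 hrw 2) (by nlinarith)
  have hCq : C1 * q = min η 1 := by rw [hq]; field_simp
  have hr2 : r' ^ 2 ≤ (r' / w') ^ 2 := by
    rw [div_pow, le_div_iff₀ (by have := h'.w_pos; positivity)]
    exact mul_le_of_le_one_right (sq_nonneg _) (pow_le_one₀ h'.w_pos.le h'.w_le_one)
  have hbound : ∀ c' : ℝ, c' ≤ C1 → c' * (r' / w') ^ 2 ≤ min η 1 := by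
    intro c' hc'
    rw [← hCq]
    exact le_trans (mul_le_mul_of_nonneg_right hc' (sq_nonneg _))
      (mul_le_mul_of_nonneg_left hsq (by linarith))
  have hsmall : P.corr C0 * r' ^ 2 ≤ 1 := by
    refine le_trans (mul_le_mul_of_nonneg_left hr2 hc0) ?_
    exact le_trans (hbound _ (by rw [hC1]; linarith)) (min_le_right _ _)
  obtain ⟨F, hFm, hF1, hF2⟩ := h'.test_set hC hsmall
  refine ⟨F, hFm, le_trans hF1 (ENNReal.ofReal_le_ofReal ?_),
    le_trans hF2 (ENNReal.ofReal_le_ofReal ?_)⟩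
  · exact le_trans (hbound _ (by rw [hC1]; linarith)) (min_le_left _ _)
  · refine le_trans (hbound _ ?_) (min_le_left _ _)
    have := le_abs_self (8 * (2 / (1 - P.lam) + 4 / (P.t0 * (P.β - 1)) * P.geo))
    rw [hC1]; linarith

end Vale.Agent.P105
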