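import Vale.Agent.P105.Base
import Vale.Agent.P105.Sing

/-!
A singular Bernoulli convolution whose parameter is not a reciprocal Pisot number.
-/

namespace Vale.Agent.P105

theorem exists_singular_not_pisot :
    ∃ l : ℝ, 1 / 2 < l ∧ l < 1 ∧ (l⁻¹) ^ 4 - (l⁻¹) ^ 3 - (l⁻¹) ^ 2 - l⁻¹ + 1 = 0 ∧
      IsIntegral ℤ l⁻¹ ∧ ¬ IsPisot l⁻¹ ∧ Singular l := by
  obtain ⟨β, t, ζ, a, hβ, hβ2, hζ, hpoly, hint, hnp, ht, ha, hrel, hc⟩ := exists_base
  let P : Setup :=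
    { β := β, ζ := ζ, B := t, t0 := 1, m := 1 / 5, hβ := hβ, hζ := hζ, hB := ht,
      ht0 := one_pos, hm := by norm_num }
  have ht0 : 0 < t := by linarith
  have hsing : Singular β⁻¹ :=
    singular_of_orbit P (r := 31 / 100) (t := t) (b := t) (a := a) (by norm_num) le_rfl
      (by rw [abs_of_pos ht0]; exact ht) (by rw [abs_of_pos ht0]) ha hrel hc
  refine ⟨β⁻¹, ?_, inv_lt_one_of_one_lt₀ hβ, ?_, ?_, ?_, hsing⟩
  · rw [one_div]; exact inv_strictAnti₀ (by linarith) hβ2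
  · rw [inv_inv]; exact hpoly
  · rw [inv_inv]; exact hint
  · rw [inv_inv]; exact hnp

end Vale.Agent.P105
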