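import Vale.Agent.P105.Step

/-!
Iterating the step: stages with `r / w` arbitrarily small.
-/

namespace Vale.Agent.P105

open Real Finset Filter
open scoped Topology

theorem Stage.w_le_one {P : Setup} {C0 r w t b : ℝ} {a : ℂ} {K : ℕ}
    (h : Stage P C0 r w t b a K) : w ≤ 1 := by
  have := h.w_le ∅ (by simp)
  simpa using this

/-- The starting stage. -/
theorem exists_start (P : Setup) {r t b : ℝ} {a : ℂ} (hr : 0 < r) (hr1 : r ≤ 31 / 100)
    (ht : P.t0 ≤ |t|) (hb : |b| ≤ P.B) (ha : ‖a‖ ≤ r ^ 6) (hrel : Rel P.β P.ζ t b a)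
    (hc : ∀ i : ℤ, P.m + 22 * r ^ 6 ≤ |c P.β t i|) :
    ∃ (C0 w : ℝ) (K : ℕ), P.GoodC C0 ∧ Stage P C0 r w t b a K := by
  obtain ⟨K, hK⟩ := pow_unbounded_of_one_lt |t| P.hβ
  set C0 : ℝ := max 10000 (max (2 * P.Cn) ((K : ℝ) * r ^ 4)) with hC0
  have hr1' : r ≤ 1 := le_trans hr1 (by norm_num)
  have hA0 := pow_pos hr 6
  have hm0 := P.m_pos
  have hmc : ∀ i, P.m ≤ |c P.β t i| := fun i => by have := hc i; linarith
  have hm1 : P.m ≤ 1 := le_trans (hmc 0) (abs_c_le_one _ _ _)
  set u : ℤ := -(K : ℤ) - P.nOf r with hu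
  set M : ℕ := ⌈P.J r + K + P.nOf r + 1⌉₊ with hM
  refine ⟨C0, Real.exp (-(10 * P.geo)) * P.m ^ M, K,
    ⟨le_max_left _ _, le_trans (le_max_left _ _) (le_max_right _ _)⟩,
    ⟨hr, hr1, hK.le, ht, hb, ha, hrel, le_trans (le_max_right _ _) (le_max_right _ _), hc,
      by positivity, ?_⟩⟩
  intro S hS
  rw [← Finset.prod_filter_mul_prod_filter_not S (fun i : ℤ => i ≤ u)]
  refine mul_le_mul ?_ ?_ (by positivity) (Finset.prod_nonneg fun i _ => abs_nonneg _)
  · have hDle : ∀ i ∈ S.filter (fun i : ℤ => i ≤ u), D P.β t i ≤ P.β ^ ((K : ℤ) + i) := by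
      intro i _
      refine le_trans (D_le_abs P.β t i) ?_
      rw [abs_X P.β_pos, zpow_add₀ P.β_pos.ne', zpow_natCast]
      exact mul_le_mul_of_nonneg_right hK.le (zpow_pos P.β_pos i).le
    have hsmall : ∀ i ∈ S.filter (fun i : ℤ => i ≤ u), D P.β t i ≤ r ^ 6 := by
      intro i hi
      refine (hDle i hi).trans (le_trans ?_ (P.zpow_nOf_le hr))
      have := (Finset.mem_filter.mp hi).2
      exact zpow_le_zpow_right₀ P.hβ.le (by omega)
    have hA : r ^ 6 ≤ 1 / 100 :=
      le_trans (pow_le_pow_left₀ hr.le hr1 6) (by norm_num)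
    calc Real.exp (-(10 * P.geo))
        ≤ Real.exp (∑ i ∈ S.filter (fun i : ℤ => i ≤ u), -(10 * D P.β t i ^ 2)) := by
          refine Real.exp_le_exp.mpr ?_
          rw [Finset.sum_neg_distrib, neg_le_neg_iff, ← Finset.mul_sum]
          refine mul_le_mul_of_nonneg_left ?_ (by norm_num)
          calc ∑ i ∈ S.filter (fun i : ℤ => i ≤ u), D P.β t i ^ 2
              ≤ ∑ i ∈ S.filter (fun i : ℤ => i ≤ u), P.β ^ (K : ℤ) * P.β ^ i := by
                refine Finset.sum_le_sum fun i hi => ?_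
                rw [← zpow_add₀ P.β_pos.ne']
                refine le_trans ?_ (hDle i hi)
                nlinarith [D_nonneg P.β t i, D_le_half P.β t i]
            _ = P.β ^ (K : ℤ) * ∑ i ∈ S.filter (fun i : ℤ => i ≤ u), P.β ^ i := by
                rw [Finset.mul_sum]
            _ ≤ P.β ^ (K : ℤ) * (P.β ^ u * P.geo) := by
                refine mul_le_mul_of_nonneg_left ?_ (zpow_pos P.β_pos _).le
                exact sum_zpow_le P.hβ fun i hi => (Finset.mem_filter.mp hi).2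
            _ ≤ P.geo := by
                rw [← mul_assoc, ← zpow_add₀ P.β_pos.ne']
                exact mul_le_of_le_one_left P.geo_pos
                  (zpow_le_one_of_nonpos₀ P.hβ.le (by omega))
      _ = ∏ i ∈ S.filter (fun i : ℤ => i ≤ u), Real.exp (-(10 * D P.β t i ^ 2)) :=
          Real.exp_sum _ _
      _ ≤ _ := Finset.prod_le_prod (fun i _ => (Real.exp_pos _).le) fun i hi =>
          exp_le_c (le_trans (hsmall i hi) (by linarith))
  · set T := S.filter (fun i : ℤ => ¬ i ≤ u) with hT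
    have hcard : (T.card : ℝ) ≤ P.J r + K + P.nOf r + 1 := by
      refine card_between (u := u + 1) (v := ⌊P.J r⌋) (fun i hi => ?_) (fun i hi => ?_) ?_
        (by have := P.J_nonneg hr; positivity)
      · have := not_le.mp (Finset.mem_filter.mp hi).2; omega
      · exact Int.le_floor.mpr (hS i (Finset.mem_filter.mp hi).1)
      · have := Int.floor_le (P.J r)
        rw [hu]; push_cast; linarith
    have hTM : T.card ≤ M := by
      have h1 : (T.card : ℝ) ≤ (M : ℝ) := le_trans hcard (Nat.le_ceil _)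
      exact_mod_cast h1
    calc P.m ^ M ≤ P.m ^ T.card := pow_le_pow_of_le_one hm0.le hm1 hTM
      _ = ∏ _i ∈ T, P.m := (Finset.prod_const _).symm
      _ ≤ _ := Finset.prod_le_prod (fun i _ => hm0.le) fun i _ => hmc i

/-- Stages with `r / w` as small as we like. -/
theorem exists_stage_small (P : Setup) {C0 r w t b : ℝ} {a : ℂ} {K : ℕ} (hC : P.GoodC C0)
    (h : Stage P C0 r w t b a K) {η : ℝ} (hη : 0 < η) :
    ∃ (r' w' t' b' : ℝ) (a' : ℂ) (K' : ℕ), Stage P C0 r' w' t' b' a' K' ∧ r' / w' ≤ η := by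
  set d : ℝ := Real.log 7 / 7 with hd
  set L := P.loss C0 with hL
  set y0 : ℝ := -Real.log r - d with hy0
  set z0 : ℝ := -Real.log w + L with hz0
  have hy0pos : 0 < y0 := by
    have h1 : 7 * r ^ 7 < 1 := by
      have := pow_le_pow_left₀ h.r_pos.le h.r_le 7
      have e : 7 * ((31 : ℝ) / 100) ^ 7 < 1 := by norm_num
      linarith
    have h2 := Real.log_neg (by have := h.r_pos; positivity) h1
    rw [Real.log_mul (by norm_num) (by have := h.r_pos; positivity), Real.log_pow] at h2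
    push_cast at h2
    rw [hy0, hd]
    linarith
  have hiter : ∀ l : ℕ, ∃ (r' w' t' b' : ℝ) (a' : ℂ) (K' : ℕ),
      Stage P C0 r' w' t' b' a' K' ∧ d + (13 / 6) ^ l * y0 ≤ -Real.log r' ∧
        -Real.log w' ≤ 2 ^ l * z0 - L := by
    intro l
    induction l with
    | zero =>
        refine ⟨r, w, t, b, a, K, h, ?_, ?_⟩
        · rw [hy0]; simp
        · rw [hz0]; simp
    | succ l ih =>
        obtain ⟨r1, w1, t1, b1, a1, K1, h1, hy, hz⟩ := ih
        obtain ⟨r2, t2, b2, a2, K2, h2, hr2⟩ := h1.step hC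
        refine ⟨r2, _, t2, b2, a2, K2, h2, ?_, ?_⟩
        · have e := Real.log_le_log (pow_pos h2.r_pos 6) hr2
          rw [Real.log_mul (by norm_num) (by have := h1.r_pos; positivity), Real.log_pow,
            Real.log_pow] at e
          push_cast at e
          rw [pow_succ, hd] at *
          linarith
        · rw [Real.log_mul (by have := h1.w_pos; positivity) (Real.exp_pos _).ne', Real.log_pow,
            Real.log_exp, ← hL, pow_succ]
          push_cast
          linarith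
  obtain ⟨l, hl1, hl2⟩ : ∃ l : ℕ, 1 + z0 ≤ (13 / 12 : ℝ) ^ l * y0 ∧
      -Real.log η - L - d ≤ 2 ^ l := by
    have e1 : Tendsto (fun l : ℕ => (13 / 12 : ℝ) ^ l * y0) atTop atTop :=
      (tendsto_pow_atTop_atTop_of_one_lt (by norm_num)).atTop_mul_const hy0pos
    have e2 : Tendsto (fun l : ℕ => (2 : ℝ) ^ l) atTop atTop :=
      tendsto_pow_atTop_atTop_of_one_lt (by norm_num)
    obtain ⟨l, hl⟩ := ((e1.eventually_ge_atTop (1 + z0)).and
      (e2.eventually_ge_atTop (-Real.log η - L - d))).exists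
    exact ⟨l, hl.1, hl.2⟩
  obtain ⟨r', w', t', b', a', K', h', hy, hz⟩ := hiter l
  refine ⟨r', w', t', b', a', K', h', ?_⟩
  rw [← Real.log_le_log_iff (div_pos h'.r_pos h'.w_pos) hη,
    Real.log_div h'.r_pos.ne' h'.w_pos.ne']
  have e : (13 / 6 : ℝ) ^ l = 2 ^ l * (13 / 12) ^ l := by
    rw [← mul_pow]; norm_num
  have e2 : (2 : ℝ) ^ l * (1 + z0) ≤ 2 ^ l * ((13 / 12) ^ l * y0) :=
    mul_le_mul_of_nonneg_left hl1 (by positivity)
  rw [e] at hy
  nlinarith

end Vale.Agent.P105
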