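import Vale.Agent.P105.Orbit

/-!
Stages of the hierarchy: orbits with a small unit-circle component and quiet phases.
-/

namespace Vale.Agent.P105

open Real Finset

/-- Fixed parameters of the construction. -/
structure Setup where
  /-- the expanding number -/
  β : ℝ
  /-- the conjugate on the unit circle -/
  ζ : ℂ
  /-- bound for the contracting component -/
  B : ℝ
  /-- lower bound for the orbit coefficient -/
  t0 : ℝ
  /-- lower bound for all phase factors -/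
  m : ℝ
  hβ : 1 < β
  hζ : ‖ζ‖ = 1
  hB : 1 ≤ B
  ht0 : 0 < t0
  hm : 60 * ((31 : ℝ) / 100) ^ 6 ≤ m

namespace Setup

variable (P : Setup)

theorem β_pos : 0 < P.β := lt_trans one_pos P.hβ

theorem m_pos : 0 < P.m := lt_of_lt_of_le (by norm_num) P.hm

/-- `2B/(β-1) + 2`. -/
noncomputable def Cn : ℝ := 2 * P.B / (P.β - 1) + 2

/-- `β/(β-1)`. -/
noncomputable def geo : ℝ := P.β / (P.β - 1)

/-- An index beyond which the contracting component is at most `r ^ 6`. -/
noncomputable def nOf (r : ℝ) : ℕ := 2 * ⌈P.B / ((P.β - 1) * r ^ 3)⌉₊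

/-- The horizon of a stage. -/
noncomputable def J (r : ℝ) : ℝ := (P.nOf r : ℝ) + 1 / r ^ 6

theorem Cn_pos : 2 ≤ P.Cn := by
  have h1 : 0 ≤ 2 * P.B / (P.β - 1) :=
    div_nonneg (by linarith [P.hB]) (by linarith [P.hβ])
  unfold Cn
  linarith

theorem geo_pos : 0 ≤ P.geo := div_nonneg P.β_pos.le (by linarith [P.hβ])

theorem nOf_pos {r : ℝ} (hr : 0 < r) : 2 ≤ P.nOf r := by
  have h : 0 < ⌈P.B / ((P.β - 1) * r ^ 3)⌉₊ := by
    rw [Nat.ceil_pos]
    have h1 := P.hB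
    have h2 : 0 < P.β - 1 := by linarith [P.hβ]
    positivity
  unfold nOf
  omega

theorem nOf_le {r : ℝ} (hr : 0 < r) (hr1 : r ≤ 1) : (P.nOf r : ℝ) * r ^ 3 ≤ P.Cn := by
  have h2 : 0 < P.β - 1 := by linarith [P.hβ]
  have h1 : 0 ≤ P.B / ((P.β - 1) * r ^ 3) := by
    have := P.hB
    positivity
  have h3 := (Nat.ceil_lt_add_one h1).le
  have h4 : r ^ 3 ≤ 1 := pow_le_one₀ hr.le hr1
  have h5 : (P.nOf r : ℝ) = 2 * (⌈P.B / ((P.β - 1) * r ^ 3)⌉₊ : ℝ) := by
    unfold nOf; push_cast; ring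
  rw [h5]
  calc 2 * (⌈P.B / ((P.β - 1) * r ^ 3)⌉₊ : ℝ) * r ^ 3
      ≤ 2 * (P.B / ((P.β - 1) * r ^ 3) + 1) * r ^ 3 := by gcongr
    _ = 2 * P.B / (P.β - 1) + 2 * r ^ 3 := by field_simp
    _ ≤ P.Cn := by unfold Cn; linarith

theorem nOf_mul_le {r : ℝ} (hr : 0 < r) (hr1 : r ≤ 1) {k : ℕ} (hk : 3 ≤ k) :
    (P.nOf r : ℝ) * r ^ k ≤ P.Cn := by
  refine le_trans ?_ (P.nOf_le hr hr1)
  exact mul_le_mul_of_nonneg_left (pow_le_pow_of_le_one hr.le hr1 hk) (Nat.cast_nonneg _)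

theorem B_mul_zpow_le {r : ℝ} (hr : 0 < r) :
    P.B * P.β ^ (-(P.nOf r : ℤ)) ≤ r ^ 6 := by
  set k := ⌈P.B / ((P.β - 1) * r ^ 3)⌉₊ with hk
  have h2 : 0 < P.β - 1 := by linarith [P.hβ]
  have h1 : P.B / ((P.β - 1) * r ^ 3) ≤ (k : ℝ) := Nat.le_ceil _
  rw [div_le_iff₀ (by positivity)] at h1
  have h3 : 1 + (k : ℝ) * (P.β - 1) ≤ P.β ^ k := by
    have := one_add_mul_le_pow (a := P.β - 1) (by linarith) k
    rwa [add_sub_cancel] at this
  have h4 : P.B ≤ P.β ^ k * r ^ 3 := by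
    have : (1 + (k : ℝ) * (P.β - 1)) * r ^ 3 ≤ P.β ^ k * r ^ 3 := by gcongr
    nlinarith [pow_pos hr 3]
  have h5 : P.B * P.B ≤ P.β ^ (P.nOf r) * r ^ 6 := by
    have h := mul_self_le_mul_self (by linarith [P.hB]) h4
    calc P.B * P.B ≤ P.β ^ k * r ^ 3 * (P.β ^ k * r ^ 3) := h
      _ = P.β ^ (P.nOf r) * r ^ 6 := by unfold nOf; rw [← hk]; ring
  have h6 : P.B ≤ P.β ^ (P.nOf r) * r ^ 6 := le_trans (by nlinarith [P.hB]) h5
  rw [zpow_neg, zpow_natCast, ← div_eq_mul_inv, div_le_iff₀ (pow_pos P.β_pos _)]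
  linarith

theorem zpow_nOf_le {r : ℝ} (hr : 0 < r) : P.β ^ (-(P.nOf r : ℤ)) ≤ r ^ 6 := by
  refine le_trans ?_ (P.B_mul_zpow_le hr)
  exact le_mul_of_one_le_left (zpow_pos P.β_pos _).le P.hB

theorem J_nonneg {r : ℝ} (hr : 0 < r) : 0 ≤ P.J r := by
  unfold J; positivity

theorem J_le {r : ℝ} (hr : 0 < r) (hr1 : r ≤ 1) : P.J r * r ^ 6 ≤ P.Cn + 1 := by
  have h := P.nOf_mul_le hr hr1 (k := 6) (by norm_num)
  unfold J
  rw [add_mul, one_div_mul_cancel (pow_pos hr 6).ne']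
  linarith

end Setup

/-- A stage: `|a| ≤ r ^ 6`, all phase factors are bounded below, and their products up to the
horizon are at least `w`. -/
structure Stage (P : Setup) (C0 r w t b : ℝ) (a : ℂ) (K : ℕ) : Prop where
  r_pos : 0 < r
  r_le : r ≤ 31 / 100
  t_le : |t| ≤ P.β ^ K
  t_ge : P.t0 ≤ |t|
  b_le : |b| ≤ P.B
  a_le : ‖a‖ ≤ r ^ 6
  rel : Rel P.β P.ζ t b a
  K_le : (K : ℝ) * r ^ 4 ≤ C0
  c_ge : ∀ i : ℤ, P.m + 22 * r ^ 6 ≤ |c P.β t i|
  w_pos : 0 < w
  w_le : ∀ S : Finset ℤ, (∀ i ∈ S, (i : ℝ) ≤ P.J r) → w ≤ ∏ i ∈ S, |c P.β t i|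

namespace Stage

variable {P : Setup} {C0 r w t b : ℝ} {a : ℂ} {K : ℕ}

theorem r_le_one (h : Stage P C0 r w t b a K) : r ≤ 1 := le_trans h.r_le (by norm_num)

theorem A_le (h : Stage P C0 r w t b a K) : r ^ 6 ≤ (31 / 100 : ℝ) ^ 6 :=
  pow_le_pow_left₀ h.r_pos.le h.r_le 6

theorem three_A_le (h : Stage P C0 r w t b a K) : 3 * r ^ 6 ≤ 1 / 8 := by
  have h1 := h.A_le
  have h2 : ((31 : ℝ) / 100) ^ 6 ≤ 1 / 100 := by norm_num
  linarith

theorem m_le_c (h : Stage P C0 r w t b a K) (i : ℤ) : P.m ≤ |c P.β t i| := by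
  have := h.c_ge i
  have := pow_pos h.r_pos 6
  linarith

theorem small_right (h : Stage P C0 r w t b a K) {i : ℤ} (hi : (P.nOf r : ℤ) ≤ i) :
    D P.β t i ≤ 3 * r ^ 6 := by
  refine le_trans (D_le_tail P.β_pos P.hζ h.rel i) ?_
  have h1 : |b| * P.β ^ (-i) ≤ P.B * P.β ^ (-(P.nOf r : ℤ)) := by
    exact mul_le_mul h.b_le (zpow_le_zpow_right₀ P.hβ.le (by omega)) (zpow_pos P.β_pos _).le
      (le_trans zero_le_one P.hB)
  have := P.B_mul_zpow_le h.r_pos
  have := h.a_le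
  linarith

theorem D_le_left (h : Stage P C0 r w t b a K) (i : ℤ) :
    D P.β t i ≤ P.β ^ ((K : ℤ) + i) := by
  refine le_trans (D_le_abs P.β t i) ?_
  rw [abs_X P.β_pos, zpow_add₀ P.β_pos.ne', zpow_natCast]
  exact mul_le_mul_of_nonneg_right h.t_le (zpow_pos P.β_pos i).le

theorem small_left (h : Stage P C0 r w t b a K) {i : ℤ}
    (hi : i ≤ -(K : ℤ) - P.nOf r) : D P.β t i ≤ 3 * r ^ 6 := by
  refine le_trans (h.D_le_left i) ?_
  calc P.β ^ ((K : ℤ) + i) ≤ P.β ^ (-(P.nOf r : ℤ)) := zpow_le_zpow_right₀ P.hβ.le (by omega)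
    _ ≤ r ^ 6 := P.zpow_nOf_le h.r_pos
    _ ≤ 3 * r ^ 6 := by linarith [pow_pos h.r_pos 6]

/-- Of two far apart orbit points one is close to an integer. -/
theorem small_or (h : Stage P C0 r w t b a K) {p : ℤ}
    (hp : (K : ℤ) + 2 * P.nOf r ≤ p) (i : ℤ) :
    D P.β t i ≤ 3 * r ^ 6 ∨ D P.β t (i + p) ≤ 3 * r ^ 6 := by
  by_cases hi : i ≤ -(K : ℤ) - P.nOf r
  · exact Or.inl (h.small_left hi)
  · exact Or.inr (h.small_right (by omega))

/-- Sum of the products of distances at two far apart times. -/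
theorem cross (h : Stage P C0 r w t b a K) {p : ℤ} (hp : (K : ℤ) + 2 * P.nOf r ≤ p)
    {S : Finset ℤ} {L : ℝ} (hL : 0 ≤ L) (hS : ∀ i ∈ S, (i : ℝ) ≤ L) :
    ∑ i ∈ S, D P.β t i * D P.β t (i + p) ≤
      P.geo * r ^ 6 + 3 * r ^ 6 * ((K : ℝ) + 2 * P.nOf r) + 9 * (r ^ 6) ^ 2 * (L + 1) := by
  set u : ℤ := -(K : ℤ) - P.nOf r with hu
  set n : ℤ := (P.nOf r : ℤ) with hn
  rw [← Finset.sum_filter_add_sum_filter_not S (fun i => i ≤ u),
    ← Finset.sum_filter_add_sum_filter_not (S.filter fun i => ¬ i ≤ u) (fun i => i < n)]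
  have hA : 0 ≤ r ^ 6 := (pow_pos h.r_pos 6).le
  have h1 : ∑ i ∈ S.filter (fun i => i ≤ u), D P.β t i * D P.β t (i + p) ≤ P.geo * r ^ 6 := by
    calc ∑ i ∈ S.filter (fun i => i ≤ u), D P.β t i * D P.β t (i + p)
        ≤ ∑ i ∈ S.filter (fun i => i ≤ u), P.β ^ (K : ℤ) * P.β ^ i := by
          refine Finset.sum_le_sum fun i _ => ?_
          rw [← zpow_add₀ P.β_pos.ne']
          calc D P.β t i * D P.β t (i + p) ≤ P.β ^ ((K : ℤ) + i) * 1 :=
                mul_le_mul (h.D_le_left i) (le_trans (D_le_half _ _ _) (by norm_num))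
                  (D_nonneg _ _ _) (zpow_pos P.β_pos _).le
            _ = _ := mul_one _
      _ = P.β ^ (K : ℤ) * ∑ i ∈ S.filter (fun i => i ≤ u), P.β ^ i := by rw [Finset.mul_sum]
      _ ≤ P.β ^ (K : ℤ) * (P.β ^ u * P.geo) := by
          refine mul_le_mul_of_nonneg_left ?_ (zpow_pos P.β_pos _).le
          exact sum_zpow_le P.hβ fun i hi => (Finset.mem_filter.mp hi).2
      _ = P.β ^ (-(P.nOf r : ℤ)) * P.geo := by
          rw [← mul_assoc, ← zpow_add₀ P.β_pos.ne', hu]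
          congr 2
          ring
      _ ≤ P.geo * r ^ 6 := by
          rw [mul_comm]
          exact mul_le_mul_of_nonneg_left (P.zpow_nOf_le h.r_pos) P.geo_pos
  have h2 : ∑ i ∈ (S.filter fun i => ¬ i ≤ u).filter (fun i => i < n),
      D P.β t i * D P.β t (i + p) ≤ 3 * r ^ 6 * ((K : ℝ) + 2 * P.nOf r) := by
    set T := (S.filter fun i => ¬ i ≤ u).filter (fun i => i < n) with hT
    have hcard : (T.card : ℝ) ≤ (K : ℝ) + 2 * P.nOf r := by
      refine card_between (u := u + 1) (v := n - 1) (fun i hi => ?_) (fun i hi => ?_) ?_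
        (by positivity)
      · simp only [hT, Finset.mem_filter] at hi; omega
      · simp only [hT, Finset.mem_filter] at hi; omega
      · rw [hu, hn]; push_cast; linarith
    calc ∑ i ∈ T, D P.β t i * D P.β t (i + p) ≤ ∑ i ∈ T, 3 * r ^ 6 := by
          refine Finset.sum_le_sum fun i hi => ?_
          simp only [hT, Finset.mem_filter] at hi
          calc D P.β t i * D P.β t (i + p) ≤ 1 * (3 * r ^ 6) :=
                mul_le_mul (le_trans (D_le_half _ _ _) (by norm_num))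
                  (h.small_right (by omega)) (D_nonneg _ _ _) zero_le_one
            _ = _ := one_mul _
      _ = (T.card : ℝ) * (3 * r ^ 6) := by rw [Finset.sum_const, nsmul_eq_mul]
      _ ≤ 3 * r ^ 6 * ((K : ℝ) + 2 * P.nOf r) := by
          rw [mul_comm]; exact mul_le_mul_of_nonneg_left hcard (by linarith)
  have h3 : ∑ i ∈ (S.filter fun i => ¬ i ≤ u).filter (fun i => ¬ i < n),
      D P.β t i * D P.β t (i + p) ≤ 9 * (r ^ 6) ^ 2 * (L + 1) := by
    set T := (S.filter fun i => ¬ i ≤ u).filter (fun i => ¬ i < n) with hT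
    have hcard : (T.card : ℝ) ≤ L + 1 := by
      refine card_between (u := 0) (v := ⌊L⌋) (fun i hi => ?_) (fun i hi => ?_) ?_ (by linarith)
      · simp only [hT, Finset.mem_filter] at hi; omega
      · simp only [hT, Finset.mem_filter] at hi
        exact Int.le_floor.mpr (hS i hi.1.1)
      · have := Int.floor_le L
        push_cast; linarith
    calc ∑ i ∈ T, D P.β t i * D P.β t (i + p) ≤ ∑ i ∈ T, (3 * r ^ 6) * (3 * r ^ 6) := by
          refine Finset.sum_le_sum fun i hi => ?_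
          simp only [hT, Finset.mem_filter] at hi
          exact mul_le_mul (h.small_right (by omega)) (h.small_right (by omega))
            (D_nonneg _ _ _) (by linarith)
      _ = (T.card : ℝ) * (9 * (r ^ 6) ^ 2) := by
          rw [Finset.sum_const, nsmul_eq_mul]; ring
      _ ≤ 9 * (r ^ 6) ^ 2 * (L + 1) := by
          rw [mul_comm]; exact mul_le_mul_of_nonneg_left hcard (by positivity)
  linarith

/-- The two-phase estimate. -/
theorem pair (h : Stage P C0 r w t b a K) {p : ℤ} (hp : (K : ℤ) + 2 * P.nOf r ≤ p) (i : ℤ) :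
    |s P.β t i * s P.β t (i + p)| ≤
        20 / P.m * (D P.β t i * D P.β t (i + p)) * |c P.β t i * c P.β t (i + p)| ∧
      20 / P.m * (D P.β t i * D P.β t (i + p)) ≤ 1 / 2 := by
  set x := D P.β t i with hx
  set y := D P.β t (i + p) with hy
  have hA := h.A_le
  have hA0 : 0 ≤ r ^ 6 := (pow_pos h.r_pos 6).le
  have hm := P.hm
  have hm0 := P.m_pos
  have hx0 : 0 ≤ x := D_nonneg _ _ _
  have hy0 : 0 ≤ y := D_nonneg _ _ _
  have hx2 : x ≤ 1 / 2 := D_le_half _ _ _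
  have hy2 : y ≤ 1 / 2 := D_le_half _ _ _
  have hxy : x * y ≤ 3 / 2 * r ^ 6 := by
    rcases h.small_or hp i with h' | h'
    · nlinarith [mul_le_mul h' hy2 hy0 (by linarith)]
    · nlinarith [mul_le_mul hx2 h' hy0 (by norm_num)]
  have hc : P.m / 2 ≤ |c P.β t i * c P.β t (i + p)| := by
    rw [abs_mul]
    rcases h.small_or hp i with h' | h'
    · have h1 := half_le_c (β := P.β) (t := t) (i := i) (le_trans h' h.three_A_le)
      nlinarith [h.m_le_c (i + p)]
    · have h1 := half_le_c (β := P.β) (t := t) (i := i + p) (le_trans h' h.three_A_le)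
      nlinarith [h.m_le_c i]
  constructor
  · have h1 : |s P.β t i * s P.β t (i + p)| ≤ 10 * (x * y) := by
      rw [abs_mul]
      calc |s P.β t i| * |s P.β t (i + p)| ≤ (π * x) * (π * y) :=
            mul_le_mul (abs_s_le _ _ _) (abs_s_le _ _ _) (abs_nonneg _) (by positivity)
        _ = π ^ 2 * (x * y) := by ring
        _ ≤ 10 * (x * y) := by
            refine mul_le_mul_of_nonneg_right ?_ (by positivity)
            nlinarith [Real.pi_pos, Real.pi_lt_d4]
    refine h1.trans ?_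
    calc 10 * (x * y) = 20 / P.m * (x * y) * (P.m / 2) := by field_simp; ring
      _ ≤ _ := mul_le_mul_of_nonneg_left hc (by positivity)
  · rw [div_mul_eq_mul_div, div_le_iff₀ hm0]
    nlinarith

/-- Products over sets reaching beyond the horizon. -/
theorem w_ext (h : Stage P C0 r w t b a K) {S : Finset ℤ} {L : ℝ} (hL : 0 ≤ L)
    (hS : ∀ i ∈ S, (i : ℝ) ≤ L) :
    w * Real.exp (-(90 * (r ^ 6) ^ 2 * (L + 1))) ≤ ∏ i ∈ S, |c P.β t i| := by
  rw [← Finset.prod_filter_mul_prod_filter_not S (fun i : ℤ => (i : ℝ) ≤ P.J r)]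
  refine mul_le_mul (h.w_le _ fun i hi => (Finset.mem_filter.mp hi).2) ?_ (Real.exp_pos _).le
    (Finset.prod_nonneg fun i _ => abs_nonneg _)
  set T := S.filter (fun i : ℤ => ¬ (i : ℝ) ≤ P.J r) with hT
  have hbig : ∀ i ∈ T, (P.nOf r : ℤ) ≤ i := by
    intro i hi
    simp only [hT, Finset.mem_filter, not_le] at hi
    have h1 : (P.nOf r : ℝ) ≤ P.J r := by
      unfold Setup.J
      have := pow_pos h.r_pos 6
      linarith [one_div_pos.mpr this]
    have h2 : ((P.nOf r : ℤ) : ℝ) ≤ ((i : ℤ) : ℝ) := by push_cast; linarith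
    exact_mod_cast h2
  have hcard : (T.card : ℝ) ≤ L + 1 := by
    refine card_between (u := 0) (v := ⌊L⌋) (fun i hi => ?_) (fun i hi => ?_) ?_ (by linarith)
    · have := hbig i hi; omega
    · simp only [hT, Finset.mem_filter] at hi
      exact Int.le_floor.mpr (hS i hi.1)
    · have := Int.floor_le L
      push_cast; linarith
  have hA := h.A_le
  calc Real.exp (-(90 * (r ^ 6) ^ 2 * (L + 1)))
      ≤ Real.exp (∑ i ∈ T, -(10 * D P.β t i ^ 2)) := by
        refine Real.exp_le_exp.mpr ?_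
        rw [Finset.sum_neg_distrib, neg_le_neg_iff]
        calc ∑ i ∈ T, 10 * D P.β t i ^ 2 ≤ ∑ i ∈ T, 90 * (r ^ 6) ^ 2 := by
              refine Finset.sum_le_sum fun i hi => ?_
              have h1 := pow_le_pow_left₀ (D_nonneg _ _ _) (h.small_right (hbig i hi)) 2
              nlinarith
          _ = (T.card : ℝ) * (90 * (r ^ 6) ^ 2) := by rw [Finset.sum_const, nsmul_eq_mul]
          _ ≤ _ := by
              rw [mul_comm]
              exact mul_le_mul_of_nonneg_left hcard (by positivity)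
    _ = ∏ i ∈ T, Real.exp (-(10 * D P.β t i ^ 2)) := Real.exp_sum _ _
    _ ≤ ∏ i ∈ T, |c P.β t i| := by
        refine Finset.prod_le_prod (fun i _ => (Real.exp_pos _).le) fun i hi => exp_le_c ?_
        exact le_trans (h.small_right (hbig i hi)) (by linarith [h.three_A_le])

end Stage

end Vale.Agent.P105
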