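import Vale.Agent.P105.Stage
import Vale.Agent.P105.Dirichlet

/-!
One step of the hierarchy: `(t, b, a) ↦ (t (β^p - 1), b (β^-p - 1), a (ζ^p - 1))`.
-/

namespace Vale.Agent.P105

open Real Finset

namespace Setup

variable (P : Setup)

/-- The loss of a step (in the exponent). -/
noncomputable def loss (C0 : ℝ) : ℝ :=
  2 * (90 * (40 * C0 ^ 2 + 1)) +
    2 * (20 / P.m) * (P.geo + 6 * C0 + 9 * (20 * C0 ^ 2 + 1)) +
    20 * ((P.Cn + 1) * (1 + 20 * C0 ^ 2) + 1) + 80 * (P.Cn + 2)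

theorem loss_nonneg {C0 : ℝ} (hC : 0 ≤ C0) : 0 ≤ P.loss C0 := by
  have := P.geo_pos
  have := P.Cn_pos
  have := P.m_pos
  unfold loss
  positivity

/-- The condition on the constant `C0`. -/
def GoodC (C0 : ℝ) : Prop := 10000 ≤ C0 ∧ 2 * P.Cn ≤ C0

end Setup

namespace Stage

variable {P : Setup} {C0 r w t b : ℝ} {a : ℂ} {K : ℕ}

/-- The gap `K + 2 n` is at most `2 C0 / r ^ 4`. -/
theorem gap_le (h : Stage P C0 r w t b a K) (hC : P.GoodC C0) {k : ℕ} (hk : 4 ≤ k) :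
    ((K : ℝ) + 2 * P.nOf r) * r ^ k ≤ 2 * C0 := by
  have h1 : (K : ℝ) * r ^ k ≤ C0 :=
    le_trans (mul_le_mul_of_nonneg_left (pow_le_pow_of_le_one h.r_pos.le h.r_le_one hk)
      (Nat.cast_nonneg _)) h.K_le
  have h2 := P.nOf_mul_le h.r_pos h.r_le_one (k := k) (by omega)
  have := hC.2
  linarith

theorem abs_c_sub (β t : ℝ) (hβ : 0 < β) (p : ℕ) (i : ℤ) :
    c β (t * (β ^ p - 1)) i = c β t (i + p) * c β t i + s β t (i + p) * s β t i := by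
  have h : π * X β (t * (β ^ p - 1)) i = π * X β t (i + p) - π * X β t i := by
    simp only [X, zpow_add₀ hβ.ne', zpow_natCast]
    ring
  rw [c, h, Real.cos_sub]
  rfl

theorem rel_step {β : ℝ} (hβ : 0 < β) {ζ : ℂ} (hζ : ζ ≠ 0) {t b : ℝ} {a : ℂ}
    (h : Rel β ζ t b a) (p : ℕ) :
    Rel β ζ (t * (β ^ p - 1)) (b * (β ^ (-(p : ℤ)) - 1)) (a * (ζ ^ p - 1)) := by
  intro i
  obtain ⟨k1, hk1⟩ := h (i + p)
  obtain ⟨k2, hk2⟩ := h i
  refine ⟨k1 - k2, ?_⟩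
  have e1 : a * (ζ ^ p - 1) * ζ ^ i = a * ζ ^ (i + p) - a * ζ ^ i := by
    rw [zpow_add₀ hζ, zpow_natCast]; ring
  have e2 : β ^ (-(i + (p : ℤ))) = β ^ (-i) * β ^ (-(p : ℤ)) := by
    rw [← zpow_add₀ hβ.ne']; congr 1; ring
  rw [e1, Complex.sub_re]
  push_cast
  rw [← hk1, ← hk2, e2, zpow_add₀ hβ.ne', zpow_natCast]
  ring

/-- The bound on the new exponent. -/
theorem new_K_le {C0 r r' δ p q : ℝ} (hC1 : 10000 ≤ C0) (hr'6 : r' ^ 6 = r ^ 6 * δ)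
    (hq : 0 ≤ q) (hqp : q ≤ 2 * p) (hδ0 : 0 ≤ δ) (hp : 0 ≤ p) (hp12 : p * r ^ 12 ≤ 20 * C0 ^ 2)
    (hδp : δ * p ≤ 7) : q * r' ^ 4 ≤ C0 := by
  have hC0 : (0 : ℝ) ≤ C0 := by linarith
  refine (pow_le_pow_iff_left₀ (by positivity) hC0 (n := 3) (by norm_num)).mp ?_
  calc (q * r' ^ 4) ^ 3 = q ^ 3 * (r' ^ 6) ^ 2 := by ring
    _ ≤ (2 * p) ^ 3 * (r' ^ 6) ^ 2 :=
        mul_le_mul_of_nonneg_right (pow_le_pow_left₀ hq hqp 3) (by positivity)
    _ = 8 * (p * r ^ 12) * (δ * p) ^ 2 := by rw [hr'6]; ring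
    _ ≤ 8 * (20 * C0 ^ 2) * 7 ^ 2 :=
        mul_le_mul (mul_le_mul_of_nonneg_left hp12 (by norm_num))
          (pow_le_pow_left₀ (by positivity) hδp 2) (by positivity) (by positivity)
    _ ≤ C0 ^ 3 := by nlinarith [sq_nonneg C0]

/-- The new phases stay away from zero. -/
theorem c_new_ge (h : Stage P C0 r w t b a K) {p : ℕ} (hgap : (K : ℤ) + 2 * P.nOf r ≤ (p : ℤ))
    {r' : ℝ} (hA' : r' ^ 6 ≤ r ^ 6 / 10) :
    ∀ i : ℤ, P.m + 22 * r' ^ 6 ≤ |c P.β (t * (P.β ^ p - 1)) i| := by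
  have hr0 := h.r_pos
  have hA0 : 0 < r ^ 6 := pow_pos hr0 6
  intro i
  rw [abs_c_sub P.β t P.β_pos]
  have key : ∀ u v : ℤ, D P.β t u ≤ 3 * r ^ 6 →
      P.m + 22 * r' ^ 6 ≤ |c P.β t v * c P.β t u| - |s P.β t v * s P.β t u| := by
    intro u v hu
    have h1 := one_sub_sq_le_c P.β t u
    have h2 := h.c_ge v
    have h3 := abs_c_le_one P.β t v
    have h4 : π * D P.β t u ≤ 10 * r ^ 6 := by
      nlinarith [Real.pi_pos, Real.pi_lt_d4, D_nonneg P.β t u]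
    have h5 : |s P.β t v * s P.β t u| ≤ 10 * r ^ 6 := by
      rw [abs_mul]
      calc |s P.β t v| * |s P.β t u| ≤ 1 * (10 * r ^ 6) :=
            mul_le_mul (Real.abs_sin_le_one _) (le_trans (abs_s_le _ _ _) h4) (abs_nonneg _)
              zero_le_one
        _ = _ := one_mul _
    have h6 : (π * D P.β t u) ^ 2 / 2 ≤ r ^ 6 := by
      have h60 : 0 ≤ π * D P.β t u := mul_nonneg Real.pi_pos.le (D_nonneg _ _ _)
      have := pow_le_pow_left₀ h60 h4 2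
      have e : r ^ 6 ≤ 1 / 100 := by
        have := h.A_le
        have e2 : ((31 : ℝ) / 100) ^ 6 ≤ 1 / 100 := by norm_num
        linarith
      nlinarith
    rw [abs_mul (c P.β t v)]
    nlinarith [abs_nonneg (c P.β t v), abs_nonneg (c P.β t u)]
  have habs : |c P.β t (i + p) * c P.β t i| - |s P.β t (i + p) * s P.β t i| ≤
      |c P.β t (i + p) * c P.β t i + s P.β t (i + p) * s P.β t i| := abs_sub_abs_le_abs_add _ _
  refine le_trans ?_ habs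
  rcases h.small_or (p := (p : ℤ)) hgap i with h' | h'
  · exact key i (i + p) h'
  · rw [mul_comm (c P.β t (i + p)), mul_comm (s P.β t (i + p))]
    exact key (i + p) i h'

/-- The new product up to `p`. -/
theorem prod_low (h : Stage P C0 r w t b a K) {p : ℕ} (hgap : (K : ℤ) + 2 * P.nOf r ≤ (p : ℤ))
    {S1 : Finset ℤ} (hS1p : ∀ i ∈ S1, i ≤ (p : ℤ)) :
    ∃ T : ℝ, T ≤ P.geo * r ^ 6 + 3 * r ^ 6 * ((K : ℝ) + 2 * P.nOf r) +
          9 * (r ^ 6) ^ 2 * ((p : ℝ) + 1) ∧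
      (w * Real.exp (-(90 * (r ^ 6) ^ 2 * (2 * (p : ℝ) + 1)))) *
          (w * Real.exp (-(90 * (r ^ 6) ^ 2 * (2 * (p : ℝ) + 1)))) *
          Real.exp (-(2 * (20 / P.m) * T)) ≤
        ∏ i ∈ S1, |c P.β (t * (P.β ^ p - 1)) i| := by
  have hpair := fun i : ℤ => h.pair (p := (p : ℤ)) hgap i
  have h2p : ∀ i ∈ S1, ((i : ℤ) : ℝ) ≤ 2 * p := by
    intro i hi
    have : ((i : ℤ) : ℝ) ≤ ((p : ℤ) : ℝ) := by exact_mod_cast hS1p i hi
    push_cast at this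
    linarith
  set E := Real.exp (-(90 * (r ^ 6) ^ 2 * (2 * (p : ℝ) + 1))) with hE
  have hw1 : w * E ≤ ∏ i ∈ S1, |c P.β t i| := h.w_ext (by positivity) h2p
  have hw2 : w * E ≤ ∏ i ∈ S1, |c P.β t (i + p)| := by
    rw [show (∏ i ∈ S1, |c P.β t (i + (p : ℤ))|) =
      ∏ i ∈ S1.map (addRightEmbedding (p : ℤ)), |c P.β t i| by rw [Finset.prod_map]; rfl]
    refine h.w_ext (by positivity) fun i hi => ?_
    rw [Finset.mem_map] at hi
    obtain ⟨k, hk, rfl⟩ := hi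
    have : ((k : ℤ) : ℝ) ≤ ((p : ℤ) : ℝ) := by exact_mod_cast hS1p k hk
    simp only [addRightEmbedding_apply]
    push_cast at this ⊢
    linarith
  set T := ∑ i ∈ S1, D P.β t i * D P.β t (i + p) with hT
  have hTle : T ≤ P.geo * r ^ 6 + 3 * r ^ 6 * ((K : ℝ) + 2 * P.nOf r) +
      9 * (r ^ 6) ^ 2 * ((p : ℝ) + 1) :=
    h.cross hgap (Nat.cast_nonneg _) fun i hi => by exact_mod_cast hS1p i hi
  have hbound1 : (w * E) * (w * E) * Real.exp (-(2 * (20 / P.m) * T)) ≤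
      ∏ i ∈ S1, |c P.β (t * (P.β ^ p - 1)) i| := by
    calc (w * E) * (w * E) * Real.exp (-(2 * (20 / P.m) * T))
        ≤ (∏ i ∈ S1, |c P.β t (i + p)|) * (∏ i ∈ S1, |c P.β t i|) *
            ∏ i ∈ S1, Real.exp (-(2 * (20 / P.m * (D P.β t i * D P.β t (i + p))))) := by
          refine mul_le_mul (mul_le_mul hw2 hw1 (mul_nonneg h.w_pos.le (Real.exp_pos _).le)
            (Finset.prod_nonneg fun i _ => abs_nonneg _)) (le_of_eq ?_) (Real.exp_pos _).le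
            (mul_nonneg (Finset.prod_nonneg fun i _ => abs_nonneg _)
              (Finset.prod_nonneg fun i _ => abs_nonneg _))
          rw [← Real.exp_sum, hT, Finset.mul_sum, ← Finset.sum_neg_distrib]
          congr 1
          exact Finset.sum_congr rfl fun i _ => by ring
      _ = ∏ i ∈ S1, |c P.β t (i + p)| * |c P.β t i| *
            Real.exp (-(2 * (20 / P.m * (D P.β t i * D P.β t (i + p))))) := by
          rw [Finset.prod_mul_distrib, Finset.prod_mul_distrib]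
      _ ≤ _ := by
          refine Finset.prod_le_prod (fun i _ => by positivity) fun i _ => ?_
          obtain ⟨h1, h2⟩ := hpair i
          set u := 20 / P.m * (D P.β t i * D P.β t (i + p)) with hu
          have hu0 : 0 ≤ u := by
            have := D_nonneg P.β t i
            have := D_nonneg P.β t (i + p)
            have := P.m_pos
            positivity
          rw [abs_c_sub P.β t P.β_pos]
          refine le_trans ?_ (abs_sub_abs_le_abs_add _ _)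
          rw [mul_comm (s P.β t (i + p)), ← abs_mul]
          rw [mul_comm (c P.β t i)] at h1
          have h3 : Real.exp (-(2 * u)) ≤ 1 - u := by
            rw [Real.exp_neg]
            have e1 := Real.add_one_le_exp (2 * u)
            rw [inv_le_iff_one_le_mul₀ (Real.exp_pos _)]
            nlinarith
          nlinarith [abs_nonneg (c P.β t (i + p) * c P.β t i)]
  exact ⟨T, hTle, hbound1⟩

/-- The new product beyond `p`. -/
theorem prod_high (h : Stage P C0 r w t b a K) {p : ℕ} (hgap : (K : ℤ) + 2 * P.nOf r ≤ (p : ℤ))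
    {t' b' : ℝ} {a' : ℂ} (hrel' : Rel P.β P.ζ t' b' a') (hb' : |b'| ≤ P.B) {r' : ℝ}
    (hr'0 : 0 < r') (hr'1 : r' ≤ 1) (ha' : ‖a'‖ ≤ r' ^ 6) (hA' : r' ^ 6 ≤ r ^ 6 / 10)
    (hinv : 7 * (r ^ 6) ^ 4 ≤ (1 + 20 * C0 ^ 2) * r' ^ 6)
    {S2 : Finset ℤ} (hip : ∀ i ∈ S2, (p : ℤ) < i) (hS : ∀ i ∈ S2, (i : ℝ) ≤ P.J r') :
    Real.exp (-(20 * ((P.Cn + 1) * (1 + 20 * C0 ^ 2) + 1) + 80 * (P.Cn + 2))) ≤
      ∏ i ∈ S2, |c P.β t' i| := by
  have hr0 := h.r_pos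
  have hA0 : 0 < r ^ 6 := pow_pos hr0 6
  have hA1 : r ^ 6 ≤ 1 := pow_le_one₀ hr0.le h.r_le_one
  have hA3 := h.three_A_le
  have hJ' := P.J_le hr'0 hr'1
  have hD : ∀ i ∈ S2, D P.β t' i ≤ (r ^ 6) ^ 2 + 2 * r' ^ 6 := by
    intro i hi
    refine le_trans (D_le_tail P.β_pos P.hζ hrel' i) ?_
    have hpi := hip i hi
    have h1 : P.β ^ (-i) ≤ P.β ^ (-(P.nOf r : ℤ)) * P.β ^ (-(P.nOf r : ℤ)) := by
      rw [← zpow_add₀ P.β_pos.ne']
      exact zpow_le_zpow_right₀ P.hβ.le (by omega)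
    have h2 : P.B * P.β ^ (-i) ≤ (r ^ 6) ^ 2 := by
      calc P.B * P.β ^ (-i)
          ≤ (P.B * P.β ^ (-(P.nOf r : ℤ))) * P.β ^ (-(P.nOf r : ℤ)) := by
            rw [mul_assoc]
            exact mul_le_mul_of_nonneg_left h1 (le_trans zero_le_one P.hB)
        _ ≤ r ^ 6 * r ^ 6 :=
            mul_le_mul (P.B_mul_zpow_le hr0) (P.zpow_nOf_le hr0) (zpow_pos P.β_pos _).le
              hA0.le
        _ = _ := by ring
    have h3 := mul_le_mul_of_nonneg_right hb' (zpow_pos P.β_pos (-i)).le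
    linarith
  have hcard : (S2.card : ℝ) ≤ P.J r' + 1 := by
    refine card_between (u := 0) (v := ⌊P.J r'⌋) (fun i hi => ?_) (fun i hi => ?_) ?_
      (by linarith [P.J_nonneg hr'0])
    · have := hip i hi; omega
    · exact Int.le_floor.mpr (hS i hi)
    · have := Int.floor_le (P.J r')
      push_cast; linarith
  have hsum : ∑ i ∈ S2, 10 * D P.β t' i ^ 2 ≤
      20 * ((P.Cn + 1) * (1 + 20 * C0 ^ 2) + 1) + 80 * (P.Cn + 2) := by
    have hterm : ∀ i ∈ S2, 10 * D P.β t' i ^ 2 ≤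
        20 * (r ^ 6) ^ 4 + 80 * (r' ^ 6) ^ 2 := by
      intro i hi
      have h1 := pow_le_pow_left₀ (D_nonneg _ _ _) (hD i hi) 2
      nlinarith [sq_nonneg ((r ^ 6) ^ 2 - 2 * r' ^ 6)]
    refine le_trans (Finset.sum_le_sum hterm) ?_
    rw [Finset.sum_const, nsmul_eq_mul]
    have hA'1 : r' ^ 6 ≤ 1 := pow_le_one₀ hr'0.le hr'1
    have hA'0 : 0 ≤ r' ^ 6 := by positivity
    have hJ0 := P.J_nonneg hr'0
    have hq4 : (r ^ 6) ^ 4 ≤ 1 := pow_le_one₀ hA0.le hA1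
    have hq2 : (r' ^ 6) ^ 2 ≤ 1 := pow_le_one₀ hA'0 hA'1
    have hJ4 : P.J r' * (r ^ 6) ^ 4 ≤ (P.Cn + 1) * (1 + 20 * C0 ^ 2) := by
      have e1 := mul_le_mul_of_nonneg_left hinv hJ0
      have e2 := mul_le_mul_of_nonneg_right hJ' (by positivity : (0:ℝ) ≤ 1 + 20 * C0 ^ 2)
      have e3 : 0 ≤ P.J r' * (r ^ 6) ^ 4 := by positivity
      nlinarith
    have hJ2 : P.J r' * (r' ^ 6) ^ 2 ≤ P.Cn + 1 := by
      calc P.J r' * (r' ^ 6) ^ 2 = (P.J r' * r' ^ 6) * r' ^ 6 := by ring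
        _ ≤ (P.Cn + 1) * 1 := mul_le_mul hJ' hA'1 hA'0 (by linarith [P.Cn_pos])
        _ = _ := mul_one _
    calc (S2.card : ℝ) * (20 * (r ^ 6) ^ 4 + 80 * (r' ^ 6) ^ 2)
        ≤ (P.J r' + 1) * (20 * (r ^ 6) ^ 4 + 80 * (r' ^ 6) ^ 2) :=
          mul_le_mul_of_nonneg_right hcard (by positivity)
      _ = 20 * (P.J r' * (r ^ 6) ^ 4 + (r ^ 6) ^ 4) +
          80 * (P.J r' * (r' ^ 6) ^ 2 + (r' ^ 6) ^ 2) := by ring
      _ ≤ _ := by nlinarith
  calc _ ≤ Real.exp (∑ i ∈ S2, -(10 * D P.β t' i ^ 2)) := by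
        rw [Finset.sum_neg_distrib]
        exact Real.exp_le_exp.mpr (neg_le_neg hsum)
    _ = ∏ i ∈ S2, Real.exp (-(10 * D P.β t' i ^ 2)) := Real.exp_sum _ _
    _ ≤ _ := by
        refine Finset.prod_le_prod (fun i _ => (Real.exp_pos _).le) fun i hi => exp_le_c ?_
        refine le_trans (hD i hi) ?_
        have : (r ^ 6) ^ 2 ≤ r ^ 6 := by nlinarith
        linarith

/-- The total loss. -/
theorem loss_le (h : Stage P C0 r w t b a K) (hC : P.GoodC C0) {p : ℕ}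
    (hp11 : (p : ℝ) * r ^ 12 ≤ 20 * C0 ^ 2) {T : ℝ}
    (hTle : T ≤ P.geo * r ^ 6 + 3 * r ^ 6 * ((K : ℝ) + 2 * P.nOf r) +
      9 * (r ^ 6) ^ 2 * ((p : ℝ) + 1)) :
    2 * (90 * (r ^ 6) ^ 2 * (2 * (p : ℝ) + 1)) + 2 * (20 / P.m) * T +
      (20 * ((P.Cn + 1) * (1 + 20 * C0 ^ 2) + 1) + 80 * (P.Cn + 2)) ≤ P.loss C0 := by
  have hr0 := h.r_pos
  have a4 : r ^ 12 ≤ 1 := pow_le_one₀ hr0.le h.r_le_one
  have hA1 : r ^ 6 ≤ 1 := pow_le_one₀ hr0.le h.r_le_one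
  have e1 : (r ^ 6) ^ 2 * (2 * (p : ℝ) + 1) ≤ 40 * C0 ^ 2 + 1 := by nlinarith
  have e2 : T ≤ P.geo + 6 * C0 + 9 * (20 * C0 ^ 2 + 1) := by
    refine hTle.trans ?_
    have a1 : P.geo * r ^ 6 ≤ P.geo := mul_le_of_le_one_right P.geo_pos hA1
    have a2 := h.gap_le hC (k := 6) (by norm_num)
    nlinarith
  have e3 : 0 ≤ 2 * (20 / P.m) := by have := P.m_pos; positivity
  have e4 := mul_le_mul_of_nonneg_left e2 e3
  unfold Setup.loss
  linarith

/-- One step of the hierarchy. -/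
theorem step (h : Stage P C0 r w t b a K) (hC : P.GoodC C0) :
    ∃ (r' t' b' : ℝ) (a' : ℂ) (K' : ℕ),
      Stage P C0 r' (w ^ 2 * Real.exp (-(P.loss C0))) t' b' a' K' ∧
        r' ^ 6 ≤ 7 * r ^ 13 := by
  have hr0 := h.r_pos
  have hr1 := h.r_le_one
  have hC1 : (10000 : ℝ) ≤ C0 := hC.1
  have hA0 : 0 < r ^ 6 := pow_pos hr0 6
  have hA1 : r ^ 6 ≤ 1 := pow_le_one₀ hr0.le hr1
  have h7 : r ^ 7 ≤ 1 / 100 := by
    have := pow_le_pow_left₀ hr0.le h.r_le 7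
    have e : ((31 : ℝ) / 100) ^ 7 ≤ 1 / 1000 := by norm_num
    linarith
  set n := P.nOf r with hn
  set G : ℕ := K + 2 * n with hG
  have hn2 := P.nOf_pos hr0
  have hGR : (G : ℝ) = (K : ℝ) + 2 * n := by rw [hG]; push_cast; ring
  obtain ⟨φ, hφ⟩ : ∃ φ : ℝ, Complex.exp ((2 * π * φ : ℝ) * Complex.I) = P.ζ := by
    refine ⟨Complex.arg P.ζ / (2 * π), ?_⟩
    rw [show 2 * π * (Complex.arg P.ζ / (2 * π)) = Complex.arg P.ζ by field_simp]
    have := Complex.norm_mul_exp_arg_mul_I P.ζ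
    rw [P.hζ] at this
    simpa using this
  obtain ⟨p, hGp, hp1, hpU, j, hjε, hjp⟩ := exists_mult φ (G := G) (by omega)
    (ε := r ^ 7) (by positivity) (le_trans h7 (by norm_num))
  have hpR : (1 : ℝ) ≤ p := by exact_mod_cast hp1
  have hp11 : (p : ℝ) * r ^ 11 ≤ 20 * C0 ^ 2 := by
    have h1 : (G : ℝ) * r ^ 4 ≤ 2 * C0 := by rw [hGR]; exact h.gap_le hC le_rfl
    have h2 : 2 * (G : ℝ) / r ^ 7 * r ^ 11 = 2 * ((G : ℝ) * r ^ 4) := by field_simp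
    have h3 : (G : ℝ) ^ 2 * r ^ 11 ≤ (2 * C0) ^ 2 := by
      calc (G : ℝ) ^ 2 * r ^ 11 = ((G : ℝ) * r ^ 4) ^ 2 * r ^ 3 := by ring
        _ ≤ (2 * C0) ^ 2 * 1 :=
          mul_le_mul (pow_le_pow_left₀ (by positivity) h1 2) (pow_le_one₀ hr0.le hr1)
            (by positivity) (by positivity)
        _ = _ := mul_one _
    calc (p : ℝ) * r ^ 11 ≤ (2 * (G : ℝ) / r ^ 7 + 4 * (G : ℝ) ^ 2) * r ^ 11 :=
          mul_le_mul_of_nonneg_right hpU (by positivity)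
      _ = 2 * ((G : ℝ) * r ^ 4) + 4 * ((G : ℝ) ^ 2 * r ^ 11) := by rw [add_mul, h2]; ring
      _ ≤ _ := by nlinarith
  have hpk : ∀ k : ℕ, 11 ≤ k → (p : ℝ) * r ^ k ≤ 20 * C0 ^ 2 := fun k hk =>
    le_trans (mul_le_mul_of_nonneg_left (pow_le_pow_of_le_one hr0.le hr1 hk)
      (Nat.cast_nonneg _)) hp11
  -- the new unit-circle component
  set δ : ℝ := 7 * min (r ^ 7) (1 / (p : ℝ)) with hδ
  have hδ0 : 0 < δ := by
    rw [hδ]
    have : 0 < min (r ^ 7) (1 / (p : ℝ)) := lt_min (by positivity) (by positivity)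
    positivity
  have hδε : δ ≤ 7 * r ^ 7 := mul_le_mul_of_nonneg_left (min_le_left _ _) (by norm_num)
  have hδp : δ ≤ 7 / (p : ℝ) := by
    calc δ ≤ 7 * (1 / (p : ℝ)) := mul_le_mul_of_nonneg_left (min_le_right _ _) (by norm_num)
      _ = _ := by ring
  have hζp : ‖P.ζ ^ p - 1‖ ≤ δ := by
    have e : P.ζ ^ p = Complex.exp (Complex.I * ((2 * π * ((p : ℝ) * φ - j)) : ℝ)) := by
      rw [← hφ, ← Complex.exp_nat_mul]
      refine (Complex.exp_eq_exp_iff_exists_int.mpr ⟨j, ?_⟩)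
      push_cast
      ring
    rw [e]
    refine le_trans Real.norm_exp_I_mul_ofReal_sub_one_le ?_
    have h1 : |(p : ℝ) * φ - j| ≤ min (r ^ 7) (1 / (p : ℝ)) := by
      refine le_min hjε ?_
      rw [le_div_iff₀ (by positivity)]
      linarith
    rw [Real.norm_eq_abs, abs_mul, abs_of_pos (by positivity : (0:ℝ) < 2 * π), hδ]
    exact mul_le_mul (by nlinarith [Real.pi_lt_d4]) h1 (abs_nonneg _) (by norm_num)
  set r' : ℝ := (r ^ 6 * δ) ^ (((6 : ℕ) : ℝ)⁻¹) with hr'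
  have hr'6 : r' ^ 6 = r ^ 6 * δ := Real.rpow_inv_natCast_pow (by positivity) (by norm_num)
  have hr'0 : 0 < r' := Real.rpow_pos_of_pos (by positivity) _
  have hA' : r' ^ 6 ≤ r ^ 6 / 10 := by
    rw [hr'6]; nlinarith
  have hr'r : r' ≤ r := by
    refine (pow_le_pow_iff_left₀ hr'0.le hr0.le (n := 6) (by norm_num)).mp ?_
    linarith
  have hr'1 : r' ≤ 1 := le_trans hr'r hr1
  refine ⟨r', t * (P.β ^ p - 1), b * (P.β ^ (-(p : ℤ)) - 1), a * (P.ζ ^ p - 1), K + p,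
    ?_, ?_⟩
  swap
  · rw [hr'6]
    calc r ^ 6 * δ ≤ r ^ 6 * (7 * r ^ 7) := mul_le_mul_of_nonneg_left hδε hA0.le
      _ = 7 * r ^ 13 := by ring
  -- auxiliary facts
  have hgap : (K : ℤ) + 2 * P.nOf r ≤ (p : ℤ) := by
    have : ((G : ℕ) : ℤ) ≤ (p : ℤ) := by exact_mod_cast hGp
    rw [hG] at this
    push_cast at this
    linarith
  have hβp2 : 2 ≤ P.β ^ p := by
    have h1 := P.zpow_nOf_le hr0
    have h2 : r ^ 6 ≤ 1 / 2 := by linarith [h.three_A_le]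
    rw [zpow_neg, zpow_natCast, inv_le_iff_one_le_mul₀ (pow_pos P.β_pos _)] at h1
    have h3 : P.β ^ (P.nOf r) ≤ P.β ^ p := pow_le_pow_right₀ P.hβ.le (by omega)
    nlinarith [pow_pos P.β_pos (P.nOf r)]
  have hb' : |b * (P.β ^ (-(p : ℤ)) - 1)| ≤ P.B := by
    have h1 : P.β ^ (-(p : ℤ)) ≤ 1 := zpow_le_one_of_nonpos₀ P.hβ.le (by omega)
    have h2 : 0 < P.β ^ (-(p : ℤ)) := zpow_pos P.β_pos _
    rw [abs_mul]
    calc |b| * |P.β ^ (-(p : ℤ)) - 1| ≤ P.B * 1 :=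
          mul_le_mul h.b_le (by rw [abs_le]; constructor <;> linarith) (abs_nonneg _)
            (le_trans zero_le_one P.hB)
      _ = P.B := mul_one _
  have ha' : ‖a * (P.ζ ^ p - 1)‖ ≤ r' ^ 6 := by
    rw [norm_mul, hr'6]
    exact mul_le_mul h.a_le hζp (norm_nonneg _) hA0.le
  have hrel' := rel_step P.β_pos (ζ := P.ζ) (by
    intro h0; have := P.hζ; rw [h0, norm_zero] at this; exact zero_ne_one this) h.rel p
  refine ⟨hr'0, le_trans hr'r h.r_le, ?_, ?_, hb', ha', hrel', ?_, ?_, ?_, ?_⟩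
  · -- size of t'
    rw [abs_mul, pow_add, abs_of_nonneg (by linarith : (0 : ℝ) ≤ P.β ^ p - 1)]
    exact mul_le_mul h.t_le (by linarith) (by linarith) (pow_nonneg P.β_pos.le _)
  · rw [abs_mul, abs_of_nonneg (by linarith : (0 : ℝ) ≤ P.β ^ p - 1)]
    calc P.t0 ≤ |t| * 1 := by rw [mul_one]; exact h.t_ge
      _ ≤ |t| * (P.β ^ p - 1) := mul_le_mul_of_nonneg_left (by linarith) (abs_nonneg _)
  · have hδp' : δ * p ≤ 7 := by
      rw [← le_div_iff₀ (by positivity)]; exact hδp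
    refine new_K_le hC1 hr'6 (Nat.cast_nonneg _) ?_ hδ0.le (Nat.cast_nonneg _)
      (hpk 12 (by norm_num)) hδp'
    have : (K : ℝ) ≤ p := by exact_mod_cast (show K ≤ p by omega)
    push_cast; linarith
  · exact h.c_new_ge hgap hA'
  · exact mul_pos (pow_pos h.w_pos 2) (Real.exp_pos _)
  · intro S hS
    rw [← Finset.prod_filter_mul_prod_filter_not S (fun i : ℤ => i ≤ (p : ℤ))]
    have hinv : 7 * (r ^ 6) ^ 4 ≤ (1 + 20 * C0 ^ 2) * r' ^ 6 := by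
      rw [hr'6, hδ]
      rcases min_choice (r ^ 7) (1 / (p : ℝ)) with hmin | hmin <;> rw [hmin]
      · have : r ^ 24 ≤ r ^ 13 := pow_le_pow_of_le_one hr0.le hr1 (by norm_num)
        have : 0 ≤ C0 ^ 2 * r ^ 13 := by positivity
        nlinarith
      · have e : (r ^ 6) ^ 4 ≤ (20 * C0 ^ 2) * (r ^ 6 * (1 / (p : ℝ))) := by
          rw [show (20 * C0 ^ 2) * (r ^ 6 * (1 / (p : ℝ))) = 20 * C0 ^ 2 * r ^ 6 / p by ring,
            le_div_iff₀ (by positivity)]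
          calc (r ^ 6) ^ 4 * (p : ℝ) = ((p : ℝ) * r ^ 18) * r ^ 6 := by ring
            _ ≤ 20 * C0 ^ 2 * r ^ 6 := mul_le_mul_of_nonneg_right (hpk 18 (by norm_num)) hA0.le
        have : 0 ≤ r ^ 6 * (1 / (p : ℝ)) := by positivity
        nlinarith
    obtain ⟨T, hT, hlow⟩ := h.prod_low hgap
      (S1 := S.filter fun i : ℤ => i ≤ (p : ℤ)) fun i hi => (Finset.mem_filter.mp hi).2
    have hhigh := h.prod_high hgap hrel' hb' hr'0 hr'1 ha' hA' hinv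
      (S2 := S.filter fun i : ℤ => ¬ i ≤ (p : ℤ)) (fun i hi => not_le.mp (Finset.mem_filter.mp hi).2)
      fun i hi => hS i (Finset.mem_filter.mp hi).1
    refine le_trans ?_ (mul_le_mul hlow hhigh (Real.exp_pos _).le
      (Finset.prod_nonneg fun i _ => abs_nonneg _))
    refine le_trans (mul_le_mul_of_nonneg_left (Real.exp_le_exp.mpr
      (neg_le_neg (h.loss_le hC (hpk 12 (by norm_num)) hT))) (by positivity)) (le_of_eq ?_)
    rw [show -(2 * (90 * (r ^ 6) ^ 2 * (2 * (p : ℝ) + 1)) + 2 * (20 / P.m) * T +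
        (20 * ((P.Cn + 1) * (1 + 20 * C0 ^ 2) + 1) + 80 * (P.Cn + 2))) =
      -(90 * (r ^ 6) ^ 2 * (2 * (p : ℝ) + 1)) + -(90 * (r ^ 6) ^ 2 * (2 * (p : ℝ) + 1)) +
        -(2 * (20 / P.m) * T) +
        -(20 * ((P.Cn + 1) * (1 + 20 * C0 ^ 2) + 1) + 80 * (P.Cn + 2)) by ring,
      Real.exp_add, Real.exp_add, Real.exp_add]
    ring

end Stage

end Vale.Agent.P105
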